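import Vale.Agent.P219.Perimeter

/-!
# P219: radial conformal factors on balls

A factor `φ (‖x‖²)` given on a ball with `φ' ≥ 0` extends from each smaller ball to all of space.
-/

noncomputable section

open MeasureTheory Set Filter Topology

namespace Vale.Agent.P219

variable {n : ℕ}

lemma exists_extension {φ : ℝ → ℝ} {b a : ℝ} (ha : 0 ≤ a) (hab : a < b)
    (hφ : ContDiffOn ℝ 1 φ (Iio b)) (h0 : 0 < φ 0) (hd : ∀ t ∈ Icc 0 a, 0 ≤ deriv φ t) :
    ∃ ψ : ℝ → ℝ, ContDiff ℝ 1 ψ ∧ (∀ t, 0 ≤ t → 0 < ψ t) ∧ (∀ t, 0 ≤ deriv ψ t) ∧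
      ∀ t ∈ Icc 0 a, ψ t = φ t := by
  set d := fun s => deriv φ (clamp 0 a s) with hd'
  have hcl : ∀ s, clamp 0 a s ∈ Iio b := fun s => (clamp_mem ha s).2.trans_lt hab
  have hdc : Continuous d :=
    (hφ.continuousOn_deriv_of_isOpen isOpen_Iio le_rfl).comp_continuous (continuous_clamp _ _) hcl
  set ψ := fun t => φ 0 + ∫ s in (0 : ℝ)..t, d s with hψ
  have hder : ∀ t, HasDerivAt ψ (d t) t := fun t =>
    ((hdc.integral_hasStrictDerivAt 0 t).hasDerivAt).const_add _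
  refine ⟨ψ, contDiff_one_iff_deriv.2 ⟨fun t => (hder t).differentiableAt, ?_⟩, fun t ht => ?_,
    fun t => ?_, fun t ht => ?_⟩
  · rw [show deriv ψ = d from funext fun t => (hder t).deriv]; exact hdc
  · exact add_pos_of_pos_of_nonneg h0
      (intervalIntegral.integral_nonneg ht fun s _ => hd _ (clamp_mem ha s))
  · rw [(hder t).deriv]; exact hd _ (clamp_mem ha t)
  · simp only [hψ]
    have h : ∫ s in (0 : ℝ)..t, d s = φ t - φ 0 := by
      refine intervalIntegral.integral_eq_sub_of_hasDerivAt (fun s hs => ?_) (hdc.intervalIntegrable _ _)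
      rw [uIcc_of_le ht.1] at hs
      have hs' : s ∈ Icc 0 a := ⟨hs.1, hs.2.trans ht.2⟩
      simp only [hd', clamp_of_mem hs']
      exact ((hφ.differentiableOn one_ne_zero).differentiableAt
        (Iio_mem_nhds (hs'.2.trans_lt hab))).hasDerivAt
    linarith

/-- The isoperimetric inequality for radial conformal factors on a ball. -/
theorem isoperimetric_radial (hn : 2 ≤ n) {φ : ℝ → ℝ} {R r : ℝ} (hr : 0 ≤ r) (hrR : r < R)
    (hφ : ContDiffOn ℝ 1 φ (Iio (R ^ 2))) (h0 : 0 < φ 0)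
    (hd : ∀ t ∈ Ico 0 (R ^ 2), 0 ≤ deriv φ t) {Ω : Set (EuclideanSpace ℝ (Fin n))}
    (hΩ : MeasurableSet Ω) (hΩr : Ω ⊆ Metric.closedBall 0 r)
    (hΩs : ∀ i x, x ∈ Ω → flipE i x ∈ Ω) (v : ℕ → EuclideanSpace ℝ (Fin n) → ℝ)
    (hv : ∀ j, ContDiff ℝ 1 (v j) ∧ tsupport (v j) ⊆ Metric.closedBall 0 r)
    (hlim : Tendsto (fun j => ∫ x, |v j x - Ω.indicator 1 x|) atTop (𝓝 0)) {A : ℝ}
    (hA : ∀ j, ∫ x, ‖fderiv ℝ (v j) x‖ * φ (‖x‖ ^ 2) ^ (n - 1) ≤ A) :
    n * (volume (Metric.ball (0 : EuclideanSpace ℝ (Fin n)) 1)).toReal ^ (1 / n : ℝ) *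
      (∫ x in Ω, φ (‖x‖ ^ 2) ^ n) ^ (((n : ℝ) - 1) / n) ≤ A := by
  have hab : r ^ 2 < R ^ 2 := pow_lt_pow_left₀ hrR hr two_ne_zero
  obtain ⟨ψ, hψ, hψ0, hψd, hψe⟩ := exists_extension (sq_nonneg r) hab hφ h0
    fun t ht => hd t ⟨ht.1, ht.2.trans_lt hab⟩
  set w : EuclideanSpace ℝ (Fin n) → ℝ := fun x => ψ (‖x‖ ^ 2) with hw
  have hwe : ∀ x ∈ Metric.closedBall (0 : EuclideanSpace ℝ (Fin n)) r, w x = φ (‖x‖ ^ 2) := fun x hx =>
    hψe _ ⟨sq_nonneg _, pow_le_pow_left₀ (norm_nonneg x) (mem_closedBall_zero_iff.1 hx) 2⟩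
  have hwm : ∀ x i, 0 ≤ x i * fderiv ℝ w x (EuclideanSpace.single i 1) := fun x i => by
    have h := ((hψ.differentiable one_ne_zero (‖x‖ ^ 2)).hasDerivAt.comp_hasFDerivAt x
      (hasStrictFDerivAt_norm_sq x).hasFDerivAt).fderiv
    rw [show fderiv ℝ w x = _ from h]
    simp [EuclideanSpace.inner_single_right]
    nlinarith [mul_nonneg (hψd (‖x‖ ^ 2)) (sq_nonneg (x i))]
  have h := isoperimetric hn (hψ.comp (contDiff_norm_sq ℝ)) (fun x => hψ0 _ (sq_nonneg _))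
    (fun i x => by simp only [Function.comp, LinearIsometryEquiv.norm_map]) hwm hΩ
    (Metric.isBounded_closedBall.subset hΩr) hΩs v
    (fun j => ⟨(hv j).1, (isCompact_closedBall 0 r).of_isClosed_subset (isClosed_tsupport _) (hv j).2⟩)
    hlim (A := A) fun j => (le_of_eq ?_).trans (hA j)
  · refine le_trans (le_of_eq ?_) h
    congr 2
    exact setIntegral_congr_fun hΩ fun x hx => by
      show φ (‖x‖ ^ 2) ^ n = w x ^ n
      rw [hwe x (hΩr hx)]
  · refine integral_congr_ae (Eventually.of_forall fun x => ?_)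
    by_cases hx : x ∈ tsupport (v j)
    · show ‖fderiv ℝ (v j) x‖ * w x ^ (n - 1) = _
      rw [hwe x ((hv j).2 hx)]
    · simp [(notMem_tsupport_iff_eventuallyEq.1 hx).fderiv_eq]

end Vale.Agent.P219
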