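import Vale.Agent.P219.Defs
import Vale.Agent.P219.Radial

/-!
# P219: arbitrary domains for radial conformal factors

For a factor depending on `‖x‖` only and nondecreasing, the symmetric inequality gives an inequality
on each orthant.  `n - 1` successive bisections by orthogonal hyperplanes through the origin give
`2^(n-1)` pieces of equal mass, hence the sharp constant up to the factor `2^(-1/n)`.
-/

noncomputable section

open MeasureTheory Set Filter Topology

namespace Vale.Agent.P219

variable {n : ℕ}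

/-- Euclidean space of dimension `n`. -/
abbrev Euc (n : ℕ) := EuclideanSpace ℝ (Fin n)

/-- The first `k` coordinates are positive. -/
def posSet (n k : ℕ) : Set (Euc n) := {y | ∀ i : Fin n, (i : ℕ) < k → 0 < y i}

/-- The integral over `posSet n k`. -/
def posInt (k : ℕ) (F : (Euc n) → ℝ) : ℝ := ∫ y, (posSet n k).indicator F y

lemma measurableSet_posSet (k : ℕ) : MeasurableSet (posSet n k) := by
  simp only [posSet, Set.ofPred_forall]
  exact MeasurableSet.iInter fun i => MeasurableSet.iInter fun _ =>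
    measurableSet_lt measurable_const (by fun_prop)

lemma null_linear (φ : (Euc n) →L[ℝ] ℝ) (hφ : φ ≠ 0) :
    volume {y : Euc n | φ y = 0} = 0 := by
  have h : LinearMap.ker (φ : (Euc n) →ₗ[ℝ] ℝ) ≠ ⊤ := fun h =>
    hφ (ContinuousLinearMap.ext fun y => by
      have := LinearMap.ker_eq_top.1 h
      simpa using LinearMap.congr_fun this y)
  exact Measure.addHaar_submodule volume _ h

lemma ae_coord_ne (i : Fin n) : ∀ᵐ y : Euc n, y i ≠ 0 := by
  rw [ae_iff]
  simp only [ne_eq, not_not]
  exact null_linear (EuclideanSpace.proj i) fun h => by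
    simpa using DFunLike.congr_fun h (EuclideanSpace.single i (1 : ℝ))

lemma flipE_coord (i : Fin n) (x : Euc n) (j : Fin n) :
    flipE i x j = if j = i then -x j else x j := by
  by_cases h : j = i <;> simp [flipE, h]

lemma integrable_pos {F : (Euc n) → ℝ} (hF : Integrable F) (k : ℕ) :
    Integrable ((posSet n k).indicator F) := hF.indicator (measurableSet_posSet k)

lemma integrable_comp_iso {F : (Euc n) → ℝ} (hF : Integrable F) (R : (Euc n) ≃ₗᵢ[ℝ] (Euc n)) :
    Integrable (F ∘ R) :=
  (R.measurePreserving.integrable_comp_emb R.toHomeomorph.measurableEmbedding).2 hF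

/-- Splitting along the next coordinate. -/
lemma posInt_split {F : (Euc n) → ℝ} (hF : Integrable F) {k : ℕ} (hk : k < n) :
    posInt k F = posInt (k + 1) F + posInt (k + 1) (F ∘ flipE ⟨k, hk⟩) := by
  set j : Fin n := ⟨k, hk⟩ with hj
  set Rj := flipE j
  have hRR : ∀ y, Rj (Rj y) = y := fun y => by
    ext i; by_cases h : i = j <;> simp [Rj, flipE, h]
  set G : (Euc n) → ℝ := fun y => (posSet n (k + 1)).indicator (F ∘ Rj) (Rj y) with hG
  have e1 : posInt (k + 1) (F ∘ Rj) = ∫ y, G y :=
    (Rj.measurePreserving.integral_comp Rj.toHomeomorph.measurableEmbedding _).symm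
  have hGi : Integrable G :=
    integrable_comp_iso (integrable_pos (integrable_comp_iso hF Rj) (k + 1)) Rj
  rw [e1, posInt, posInt, ← integral_add (integrable_pos hF _) hGi]
  refine integral_congr_ae ?_
  filter_upwards [ae_coord_ne j] with y hy
  have hiff : ∀ z : Euc n, z ∈ posSet n (k + 1) ↔ z ∈ posSet n k ∧ 0 < z j := by
    intro z
    refine ⟨fun h => ⟨fun i hi => h i (by omega), h j (by simp [hj])⟩, fun h i hi => ?_⟩
    rcases Nat.lt_succ_iff_lt_or_eq.1 hi with hi | hi
    · exact h.1 i hi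
    · rw [show i = j from Fin.ext hi]; exact h.2
  have hRk : Rj y ∈ posSet n k ↔ y ∈ posSet n k := by
    refine forall_congr' fun i => imp_congr_right fun hi => ?_
    rw [flipE_coord, if_neg (fun h => by rw [h] at hi; simp [hj] at hi)]
  simp only [hG]
  by_cases hyk : y ∈ posSet n k
  · rw [indicator_of_mem hyk]
    rcases lt_or_gt_of_ne hy with hneg | hpos
    · rw [indicator_of_notMem fun h => absurd ((hiff y).1 h).2 (not_lt.2 hneg.le),
        indicator_of_mem ((hiff _).2 ⟨hRk.2 hyk, by simp [Rj, flipE_coord]; linarith⟩),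
        Function.comp_apply, hRR, zero_add]
    · rw [indicator_of_mem ((hiff y).2 ⟨hyk, hpos⟩), indicator_of_notMem fun h => ?_, add_zero]
      have := ((hiff _).1 h).2
      simp [Rj, flipE_coord] at this
      linarith
  · rw [indicator_of_notMem hyk, indicator_of_notMem fun h => hyk ((hiff y).1 h).1,
      indicator_of_notMem fun h => hyk (hRk.1 ((hiff _).1 h).1), add_zero]

/-- Smoothed absolute values of the coordinates. -/
def absE (δ : ℝ) (x : Euc n) : Euc n := WithLp.toLp 2 fun i => Real.sqrt (x i ^ 2 + δ ^ 2)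

lemma absE_apply (δ : ℝ) (x : Euc n) (i : Fin n) : absE δ x i = Real.sqrt (x i ^ 2 + δ ^ 2) := rfl

lemma continuous_absE (x : Euc n) : Continuous fun δ : ℝ => absE δ x := by
  unfold absE; fun_prop

lemma continuous_absE' (δ : ℝ) : Continuous (absE (n := n) δ) := by
  unfold absE; fun_prop

lemma absE_zero (x : Euc n) (i : Fin n) : absE 0 x i = |x i| := by
  simp [absE_apply, Real.sqrt_sq_eq_abs]

lemma norm_absE_zero (x : Euc n) : ‖absE 0 x‖ = ‖x‖ := by
  simp [EuclideanSpace.norm_eq, absE_zero]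

lemma norm_le_absE (δ : ℝ) (x : Euc n) : ‖x‖ ≤ ‖absE δ x‖ := by
  simp only [EuclideanSpace.norm_eq, Real.norm_eq_abs, sq_abs, absE_apply]
  refine Real.sqrt_le_sqrt (Finset.sum_le_sum fun i _ => ?_)
  rw [Real.sq_sqrt (by positivity)]
  nlinarith

lemma absE_flip (δ : ℝ) (i : Fin n) (x : Euc n) : absE δ (flipE i x) = absE δ x := by
  ext j
  by_cases h : j = i <;> simp [absE_apply, flipE_coord, h]

lemma contDiff_absE {δ : ℝ} (hδ : 0 < δ) : ContDiff ℝ 1 (absE (n := n) δ) := by
  rw [contDiff_piLp]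
  intro i
  exact (((EuclideanSpace.proj (𝕜 := ℝ) i).contDiff.pow 2).add contDiff_const).sqrt
    fun x => by positivity

lemma norm_fderiv_comp_absE {u : (Euc n) → ℝ} (hu : ContDiff ℝ 1 u) {δ : ℝ} (hδ : 0 < δ) (x : Euc n) :
    ‖fderiv ℝ (u ∘ absE δ) x‖ ≤ ‖fderiv ℝ u (absE δ x)‖ := by
  rw [norm_functional, norm_functional]
  refine Real.sqrt_le_sqrt (Finset.sum_le_sum fun k _ => ?_)
  set e : Euc n := EuclideanSpace.single k 1 with he
  have hs : HasDerivAt (fun t : ℝ => Real.sqrt ((x k + t) ^ 2 + δ ^ 2))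
      (x k / Real.sqrt (x k ^ 2 + δ ^ 2)) 0 := by
    have h := ((((hasDerivAt_id (0 : ℝ)).const_add (x k)).fun_pow 2).add_const (δ ^ 2)).sqrt
      (by positivity)
    convert h using 1
    simp only [id_eq]
    field_simp
    norm_num
    ring
  have hA : HasDerivAt (fun t : ℝ => absE δ (x + t • e))
      ((x k / Real.sqrt (x k ^ 2 + δ ^ 2)) • e) 0 := by
    have h := ((hs.sub_const (Real.sqrt (x k ^ 2 + δ ^ 2))).smul_const e).const_add (absE δ x)
    refine h.congr_of_eventuallyEq (Eventually.of_forall fun t => ?_)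
    ext i
    by_cases hi : i = k
    · subst hi; simp [absE_apply, he]
    · simp [absE_apply, he, hi]
  have hline : HasDerivAt (fun t : ℝ => x + t • e) e 0 := by
    simpa using ((hasDerivAt_id (0 : ℝ)).smul_const e).const_add x
  have h1 := ((hu.comp (contDiff_absE hδ)).differentiable one_ne_zero
    (x + (0 : ℝ) • e)).hasFDerivAt.comp_hasDerivAt (0 : ℝ) hline
  have h2 := (hu.differentiable one_ne_zero
    (absE δ (x + (0 : ℝ) • e))).hasFDerivAt.comp_hasDerivAt (0 : ℝ) hA
  have h := h1.unique h2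
  simp only [zero_smul, add_zero, map_smul, smul_eq_mul] at h
  rw [h, mul_pow]
  refine mul_le_of_le_one_left (sq_nonneg _) ?_
  rw [div_pow, Real.sq_sqrt (by positivity), div_le_one (by positivity)]
  nlinarith

/-- Folding onto the positive orthant. -/
lemma integral_fold {F : (Euc n) → ℝ} (hF : Continuous F) (hFc : HasCompactSupport F) :
    ∀ k ≤ n, ∫ x, F (absE 0 x) = 2 ^ k * posInt k (fun x => F (absE 0 x)) := by
  have hcs : HasCompactSupport fun x => F (absE 0 x) := by
    obtain ⟨R, hR⟩ := hFc.isCompact.isBounded.subset_closedBall (0 : Euc n)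
    refine HasCompactSupport.of_support_subset_isCompact (isCompact_closedBall 0 R) fun x hx => ?_
    have := mem_closedBall_zero_iff.1 (hR (subset_tsupport F hx))
    rw [norm_absE_zero] at this
    exact mem_closedBall_zero_iff.2 this
  have hi : Integrable fun x => F (absE 0 x) :=
    (hF.comp (continuous_absE' 0)).integrable_of_hasCompactSupport hcs
  intro k hk
  induction k with
  | zero => simp [posInt, posSet]
  | succ k ih =>
    rw [ih (by omega), posInt_split hi (show k < n by omega)]
    have e : (fun x => F (absE 0 x)) ∘ flipE ⟨k, by omega⟩ = fun x => F (absE 0 x) := by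
      funext x; simp [absE_flip]
    rw [e]
    ring

lemma integral_fold_orthant {F : (Euc n) → ℝ} (hF : Continuous F) (hFc : HasCompactSupport F) :
    ∫ x, F (absE 0 x) = 2 ^ n * posInt n F := by
  rw [integral_fold hF hFc n le_rfl, posInt, posInt]
  congr 1
  refine integral_congr_ae (Eventually.of_forall fun x => ?_)
  by_cases hx : x ∈ posSet n n
  · rw [indicator_of_mem hx, indicator_of_mem hx]
    congr 1
    ext i
    rw [absE_zero, abs_of_pos (hx i i.isLt)]
  · rw [indicator_of_notMem hx, indicator_of_notMem hx]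

/-- The plane rotation with coefficients `c, s` in the coordinates `j, l`. -/
def rotFun (j l : Fin n) (c s : ℝ) (z : Euc n) : Euc n :=
  WithLp.toLp 2 fun i => if i = j then c * z j - s * z l else if i = l then s * z j + c * z l else z i

lemma norm_rotFun {j l : Fin n} (hjl : j ≠ l) {c s : ℝ} (hcs : c ^ 2 + s ^ 2 = 1) (z : Euc n) :
    ‖rotFun j l c s z‖ = ‖z‖ := by
  simp only [EuclideanSpace.norm_eq, Real.norm_eq_abs, sq_abs]
  congr 1
  have hl : l ∈ (Finset.univ.erase j : Finset (Fin n)) := by simp [hjl.symm]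
  rw [← Finset.add_sum_erase _ _ (Finset.mem_univ j), ← Finset.add_sum_erase _ _ hl,
    ← Finset.add_sum_erase _ _ (Finset.mem_univ j), ← Finset.add_sum_erase _ _ hl]
  have e : ∀ i ∈ ((Finset.univ.erase j).erase l : Finset (Fin n)),
      rotFun j l c s z i ^ 2 = z i ^ 2 := by
    intro i hi
    simp only [Finset.mem_erase, Finset.mem_univ, and_true] at hi
    simp [rotFun, hi.1, hi.2]
  rw [Finset.sum_congr rfl e]
  simp only [rotFun, if_true, hjl.symm, if_false]
  linear_combination (z j ^ 2 + z l ^ 2) * hcs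

/-- The rotation as an isometry. -/
def rot {j l : Fin n} (hjl : j ≠ l) (c s : ℝ) (hcs : c ^ 2 + s ^ 2 = 1) : (Euc n) ≃ₗᵢ[ℝ] (Euc n) :=
  LinearIsometry.toLinearIsometryEquiv
    { toFun := rotFun j l c s
      map_add' := fun z z' => by
        ext i; by_cases h1 : i = j <;> by_cases h2 : i = l <;>
          simp [rotFun, h1, h2, hjl.symm] <;> ring
      map_smul' := fun a z => by
        ext i; by_cases h1 : i = j <;> by_cases h2 : i = l <;>
          simp [rotFun, h1, h2, hjl.symm] <;> ring
      norm_map' := norm_rotFun hjl hcs } rfl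

lemma rot_apply {j l : Fin n} (hjl : j ≠ l) (c s : ℝ) (hcs : c ^ 2 + s ^ 2 = 1) (z : Euc n) :
    rot hjl c s hcs z = rotFun j l c s z := rfl

/-- A rotation bisecting the mass. -/
lemma exists_bisect {F : (Euc n) → ℝ} (hF : Integrable F) {k : ℕ} (hk : k + 1 < n) :
    ∃ R : (Euc n) ≃ₗᵢ[ℝ] (Euc n), (∀ y, R y ∈ posSet n k ↔ y ∈ posSet n k) ∧
      posInt (k + 1) (F ∘ R) = posInt k F / 2 := by
  set j : Fin n := ⟨k, by omega⟩ with hj
  set l : Fin n := ⟨n - 1, by omega⟩ with hl
  have hjl : j ≠ l := by simp [hj, hl, Fin.ext_iff]; omega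
  set L : ℝ → (Euc n) → ℝ := fun t z => Real.cos t * z j + Real.sin t * z l with hL
  set G : ℝ → (Euc n) → ℝ := fun t z =>
    {z : Euc n | 0 < L t z}.indicator ((posSet n k).indicator F) z with hG
  have hS : ∀ t, MeasurableSet {z : Euc n | 0 < L t z} := fun t =>
    measurableSet_lt measurable_const (by simp only [hL]; fun_prop)
  have hne : ∀ t, ∀ᵐ z : Euc n, L t z ≠ 0 := by
    intro t
    rw [ae_iff]
    simp only [ne_eq, not_not]
    refine null_linear (Real.cos t • EuclideanSpace.proj j + Real.sin t • EuclideanSpace.proj l)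
      fun h => ?_
    have h1 := DFunLike.congr_fun h (EuclideanSpace.single j (1 : ℝ))
    have h2 := DFunLike.congr_fun h (EuclideanSpace.single l (1 : ℝ))
    simp [hjl, hjl.symm] at h1 h2
    simpa [h1, h2] using Real.sin_sq_add_cos_sq t
  have hcont : Continuous fun t => ∫ z, G t z := by
    refine continuous_iff_continuousAt.2 fun t₀ => ?_
    refine continuousAt_of_dominated (bound := fun z => ‖(posSet n k).indicator F z‖)
      (Eventually.of_forall fun t => ((integrable_pos hF k).indicator (hS t)).1)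
      (Eventually.of_forall fun t => Eventually.of_forall fun z => norm_indicator_le_norm_self _ _)
      (integrable_pos hF k).norm ?_
    filter_upwards [hne t₀] with z hz
    have hc : Continuous fun t => L t z := by simp only [hL]; fun_prop
    rcases lt_or_gt_of_ne hz with h | h
    · refine (continuousAt_const (y := (0 : ℝ))).congr ?_
      filter_upwards [hc.continuousAt.eventually (gt_mem_nhds h)] with t ht
      exact (indicator_of_notMem (s := {z : Euc n | 0 < L t z}) (not_lt.2 ht.le) _).symm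
    · refine (continuousAt_const (y := (posSet n k).indicator F z)).congr ?_
      filter_upwards [hc.continuousAt.eventually (lt_mem_nhds h)] with t ht
      exact (indicator_of_mem (s := {z : Euc n | 0 < L t z}) ht _).symm
  have hsum : (∫ z, G 0 z) + ∫ z, G Real.pi z = posInt k F := by
    rw [posInt, ← integral_add ((integrable_pos hF k).indicator (hS 0))
      ((integrable_pos hF k).indicator (hS Real.pi))]
    refine integral_congr_ae ?_
    filter_upwards [ae_coord_ne j] with z hz
    simp only [hL, Real.cos_zero, Real.sin_zero, Real.cos_pi, Real.sin_pi, Set.indicator_apply,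
      Set.mem_ofPred_eq, one_mul, zero_mul, add_zero, neg_mul, neg_pos]
    rcases lt_or_gt_of_ne hz with h | h
    · simp [h, not_lt.2 h.le]
    · simp [h, not_lt.2 h.le]
  have hmem : posInt k F / 2 ∈ uIcc (∫ z, G 0 z) (∫ z, G Real.pi z) := by
    rw [mem_uIcc]
    rcases le_total (∫ z, G 0 z) (∫ z, G Real.pi z) with h | h
    · exact Or.inl ⟨by linarith, by linarith⟩
    · exact Or.inr ⟨by linarith, by linarith⟩
  obtain ⟨t, -, ht⟩ := intermediate_value_uIcc hcont.continuousOn hmem
  set R := rot hjl (Real.cos t) (Real.sin t) (Real.cos_sq_add_sin_sq t) with hR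
  have hk' : ∀ y, R y ∈ posSet n k ↔ y ∈ posSet n k := fun y => by
    refine forall_congr' fun i => imp_congr_right fun hi => ?_
    have h1 : i ≠ j := fun h => by rw [h] at hi; simp [hj] at hi
    have h2 : i ≠ l := fun h => by rw [h] at hi; simp [hl] at hi; omega
    simp [hR, rot_apply, rotFun, h1, h2]
  refine ⟨R, hk', ?_⟩
  have ht' : ∫ z, G t z = posInt k F / 2 := ht
  rw [← ht', posInt, ← R.measurePreserving.integral_comp R.toHomeomorph.measurableEmbedding (G t)]
  refine integral_congr_ae (Eventually.of_forall fun y => ?_)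
  have hLy : L t (R y) = y j := by
    simp only [hL, hR, rot_apply, rotFun, if_true, hjl.symm, if_false]
    linear_combination y j * Real.cos_sq_add_sin_sq t
  have hiff : y ∈ posSet n (k + 1) ↔ 0 < L t (R y) ∧ R y ∈ posSet n k := by
    rw [hLy, hk']
    refine ⟨fun h => ⟨h j (by simp [hj]), fun i hi => h i (by omega)⟩, fun h i hi => ?_⟩
    rcases Nat.lt_succ_iff_lt_or_eq.1 hi with hi | hi
    · exact h.2 i hi
    · rw [show i = j from Fin.ext hi]; exact h.1
  simp only [hG]
  by_cases h1 : 0 < L t (R y) <;> by_cases h2 : R y ∈ posSet n k <;>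
    simp [h1, h2, hiff]

section Sobolev

variable {w : (Euc n) → ℝ} (hn : 2 ≤ n) (hw : ContDiff ℝ 1 w) (hw0 : ∀ x, 0 < w x)
  (hwr : ∀ x y, ‖x‖ = ‖y‖ → w x = w y)
  (hwm : ∀ x i, 0 ≤ x i * fderiv ℝ w x (EuclideanSpace.single i 1))

/-- The mass density. -/
def massFn (w u : (Euc n) → ℝ) (x : Euc n) : ℝ := |u x| ^ ((n : ℝ) / (n - 1)) * w x ^ n

/-- The energy density. -/
def engFn (w u : (Euc n) → ℝ) (x : Euc n) : ℝ := ‖fderiv ℝ u x‖ * w x ^ (n - 1)

include hwr in
lemma massFn_comp (u : (Euc n) → ℝ) (R : (Euc n) ≃ₗᵢ[ℝ] (Euc n)) :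
    massFn w (u ∘ R) = massFn w u ∘ R := by
  funext x; simp [massFn, hwr (R x) x (R.norm_map x)]

include hwr in
lemma engFn_comp (u : (Euc n) → ℝ) (R : (Euc n) ≃ₗᵢ[ℝ] (Euc n)) :
    engFn w (u ∘ R) = engFn w u ∘ R := by
  funext x
  have e : ‖fderiv ℝ (u ∘ R) x‖ = ‖fderiv ℝ u (R x)‖ := by
    rw [show (u ∘ R) = u ∘ R.toContinuousLinearEquiv from rfl,
      R.toContinuousLinearEquiv.comp_right_fderiv]
    exact ContinuousLinearMap.opNorm_comp_linearIsometryEquiv _ R
  simp [engFn, e, hwr (R x) x (R.norm_map x)]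

include hn hw in
lemma massFn_nice {u : (Euc n) → ℝ} (hu : Continuous u) (huc : HasCompactSupport u) :
    Continuous (massFn w u) ∧ HasCompactSupport (massFn w u) := by
  have hn' : (2 : ℝ) ≤ n := by exact_mod_cast hn
  have hp : 0 < (n : ℝ) / (n - 1) := div_pos (by linarith) (by linarith)
  refine ⟨(hu.abs.rpow_const fun _ => Or.inr hp.le).mul (hw.continuous.pow n), ?_⟩
  refine HasCompactSupport.of_support_subset_isCompact huc fun x hx => ?_
  by_contra h'
  exact hx (by simp [massFn, image_eq_zero_of_notMem_tsupport h', Real.zero_rpow hp.ne'])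

include hw in
lemma engFn_nice {u : (Euc n) → ℝ} (hu : ContDiff ℝ 1 u) (huc : HasCompactSupport u) :
    Continuous (engFn w u) ∧ HasCompactSupport (engFn w u) :=
  ⟨(hu.continuous_fderiv one_ne_zero).norm.mul (hw.continuous.pow _),
    ((huc.fderiv ℝ).norm).mul_right⟩

include hw0 in
lemma posInt_massFn_nonneg (u : (Euc n) → ℝ) (k : ℕ) : 0 ≤ posInt k (massFn w u) :=
  integral_nonneg fun x => indicator_nonneg (fun y _ =>
    mul_nonneg (Real.rpow_nonneg (abs_nonneg _) _) (pow_nonneg (hw0 y).le n)) x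

include hn hw hw0 hwr hwm in
/-- The inequality on one orthant. -/
theorem orthant {u : (Euc n) → ℝ} (hu : ContDiff ℝ 1 u) (huc : HasCompactSupport u) :
    sharpConst n / 2 * posInt n (massFn w u) ^ (((n : ℝ) - 1) / n) ≤ posInt n (engFn w u) := by
  have hn' : (2 : ℝ) ≤ n := by exact_mod_cast hn
  set q : ℝ := ((n : ℝ) - 1) / n with hq
  set p : ℝ := (n : ℝ) / (n - 1) with hp
  have hp0 : 0 < p := div_pos (by linarith) (by linarith)
  have hq0 : 0 ≤ q := div_nonneg (by linarith) (by linarith)
  set d : ℕ → ℝ := fun j => ((j : ℝ) + 1)⁻¹ with hd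
  have hd0 : ∀ j, 0 < d j := fun j => by simp only [hd]; positivity
  have hdl : Tendsto d atTop (𝓝 0) := by
    simpa [hd, one_div] using (tendsto_one_div_add_atTop_nhds_zero_nat (𝕜 := ℝ))
  obtain ⟨R, hR⟩ := huc.isCompact.isBounded.subset_closedBall (0 : Euc n)
  have hz : ∀ (δ : ℝ) (x : Euc n), x ∉ Metric.closedBall (0 : Euc n) R →
      absE δ x ∉ tsupport u := fun δ x hx h => hx (mem_closedBall_zero_iff.2
        ((norm_le_absE δ x).trans (mem_closedBall_zero_iff.1 (hR h))))
  obtain ⟨B, hB⟩ := hu.continuous.bounded_above_of_compact_support huc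
  obtain ⟨B', hB'⟩ := (hu.continuous_fderiv one_ne_zero).bounded_above_of_compact_support
    (huc.fderiv ℝ)
  have hbi : ∀ (f : (Euc n) → ℝ), Continuous f → ∀ C : ℝ,
      Integrable fun x => (Metric.closedBall (0 : Euc n) R).indicator (fun x => C * f x) x :=
    fun f hf C => (integrable_indicator_iff measurableSet_closedBall).2
      ((continuous_const.mul hf).continuousOn.integrableOn_compact (isCompact_closedBall _ _))
  have hM : Tendsto (fun j => ∫ x, |u (absE (d j) x)| ^ p * w x ^ n) atTop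
      (𝓝 (∫ x, |u (absE 0 x)| ^ p * w x ^ n)) := by
    refine tendsto_integral_of_dominated_convergence _ (fun j => ?_)
      (hbi _ (hw.continuous.pow n) (B ^ p)) (fun j => Eventually.of_forall fun x => ?_)
      (Eventually.of_forall fun x => ?_)
    · exact (((hu.continuous.comp (continuous_absE' _)).abs.rpow_const fun _ => Or.inr hp0.le).mul
        (hw.continuous.pow n)).aestronglyMeasurable
    · by_cases hx : x ∈ Metric.closedBall (0 : Euc n) R
      · rw [indicator_of_mem hx, Real.norm_eq_abs, abs_of_nonneg (mul_nonneg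
          (Real.rpow_nonneg (abs_nonneg _) _) (pow_nonneg (hw0 x).le n))]
        exact mul_le_mul_of_nonneg_right
          (Real.rpow_le_rpow (abs_nonneg _) (by simpa using hB _) hp0.le) (pow_nonneg (hw0 x).le n)
      · rw [indicator_of_notMem hx, image_eq_zero_of_notMem_tsupport (hz _ x hx)]
        simp [Real.zero_rpow hp0.ne']
    · exact ((((hu.continuous.tendsto _).comp (((continuous_absE x).tendsto 0).comp hdl)).abs).rpow_const
        (Or.inr hp0.le)).mul_const _
  have hG : Tendsto (fun j => ∫ x, ‖fderiv ℝ u (absE (d j) x)‖ * w x ^ (n - 1)) atTop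
      (𝓝 (∫ x, ‖fderiv ℝ u (absE 0 x)‖ * w x ^ (n - 1))) := by
    refine tendsto_integral_of_dominated_convergence _ (fun j => ?_)
      (hbi _ (hw.continuous.pow (n - 1)) B') (fun j => Eventually.of_forall fun x => ?_)
      (Eventually.of_forall fun x => ?_)
    · exact ((((hu.continuous_fderiv one_ne_zero).comp (continuous_absE' _)).norm).mul
        (hw.continuous.pow _)).aestronglyMeasurable
    · by_cases hx : x ∈ Metric.closedBall (0 : Euc n) R
      · rw [indicator_of_mem hx, Real.norm_eq_abs, abs_of_nonneg (mul_nonneg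
          (norm_nonneg _) (pow_nonneg (hw0 x).le _))]
        exact mul_le_mul_of_nonneg_right (hB' _) (pow_nonneg (hw0 x).le _)
      · rw [indicator_of_notMem hx,
          (notMem_tsupport_iff_eventuallyEq.1 (hz _ x hx)).fderiv_eq]
        simp
    · exact ((((hu.continuous_fderiv one_ne_zero).tendsto _).comp
        (((continuous_absE x).tendsto 0).comp hdl)).norm).mul_const _
  have hstep : ∀ j, sharpConst n * (∫ x, |u (absE (d j) x)| ^ p * w x ^ n) ^ q ≤
      ∫ x, ‖fderiv ℝ u (absE (d j) x)‖ * w x ^ (n - 1) := by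
    intro j
    have hC : ContDiff ℝ 1 (u ∘ absE (d j)) := hu.comp (contDiff_absE (hd0 j))
    have hCs : HasCompactSupport (u ∘ absE (d j)) :=
      HasCompactSupport.of_support_subset_isCompact (isCompact_closedBall 0 R) fun x hx => by
        by_contra h
        exact hx (image_eq_zero_of_notMem_tsupport (f := u) (hz _ x h))
    refine (sobolev_euclidean hn hw hw0 (fun i x => hwr _ _ ((flipE i).norm_map x)) hwm hC hCs
      fun i x => by simp [absE_flip]).trans ?_
    refine integral_mono_of_nonneg (Eventually.of_forall fun x =>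
      mul_nonneg (norm_nonneg _) (pow_nonneg (hw0 x).le _)) ?_ (Eventually.of_forall fun x =>
        mul_le_mul_of_nonneg_right (norm_fderiv_comp_absE hu (hd0 j) x) (pow_nonneg (hw0 x).le _))
    refine ((((hu.continuous_fderiv one_ne_zero).comp (continuous_absE' _)).norm).mul
      (hw.continuous.pow _)).integrable_of_hasCompactSupport ?_
    refine HasCompactSupport.of_support_subset_isCompact (isCompact_closedBall 0 R) fun x hx => ?_
    by_contra h
    exact hx (by simp [(notMem_tsupport_iff_eventuallyEq.1 (hz _ x h)).fderiv_eq])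
  have hlim := le_of_tendsto_of_tendsto' ((hM.rpow_const (Or.inr hq0)).const_mul (sharpConst n))
    hG hstep
  have hw' : ∀ x, w x = w (absE 0 x) := fun x => hwr _ _ (norm_absE_zero x).symm
  have e1 : ∫ x, |u (absE 0 x)| ^ p * w x ^ n = 2 ^ n * posInt n (massFn w u) := by
    rw [← integral_fold_orthant (massFn_nice hn hw hu.continuous huc).1
      (massFn_nice hn hw hu.continuous huc).2]
    refine integral_congr_ae (Eventually.of_forall fun x => ?_)
    simp only [massFn, ← hw', hp]
  have e2 : ∫ x, ‖fderiv ℝ u (absE 0 x)‖ * w x ^ (n - 1) = 2 ^ n * posInt n (engFn w u) := by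
    rw [← integral_fold_orthant (engFn_nice hw hu huc).1 (engFn_nice hw hu huc).2]
    refine integral_congr_ae (Eventually.of_forall fun x => ?_)
    simp only [engFn, ← hw']
  rw [e1, e2, Real.mul_rpow (by positivity) (posInt_massFn_nonneg hw0 u n)] at hlim
  have e3 : ((2 : ℝ) ^ n) ^ q = 2 ^ n / 2 := by
    rw [← Real.rpow_natCast, ← Real.rpow_mul two_pos.le,
      show (n : ℝ) * q = n - 1 by simp only [hq]; field_simp, Real.rpow_sub two_pos, Real.rpow_one]
  rw [e3] at hlim
  refine le_of_mul_le_mul_left (le_trans (le_of_eq ?_) hlim) (by positivity : (0 : ℝ) < 2 ^ n)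
  ring

include hn hw hw0 hwr hwm in
/-- `m` bisections. -/
theorem bisected : ∀ (m k : ℕ), k + m + 1 = n → ∀ u : (Euc n) → ℝ, ContDiff ℝ 1 u →
    HasCompactSupport u →
    sharpConst n / 2 * ((2 : ℝ) ^ (1 / n : ℝ)) ^ m *
      posInt k (massFn w u) ^ (((n : ℝ) - 1) / n) ≤ posInt k (engFn w u) := by
  have hn' : (2 : ℝ) ≤ n := by exact_mod_cast hn
  set q : ℝ := ((n : ℝ) - 1) / n with hq
  have hq0 : 0 ≤ q := div_nonneg (by linarith) (by linarith)
  have hq1 : q ≤ 1 := by rw [hq, div_le_one (by linarith)]; linarith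
  have hint : ∀ u : (Euc n) → ℝ, ContDiff ℝ 1 u → HasCompactSupport u →
      Integrable (massFn w u) ∧ Integrable (engFn w u) := fun u hu huc =>
    ⟨(massFn_nice hn hw hu.continuous huc).1.integrable_of_hasCompactSupport
      (massFn_nice hn hw hu.continuous huc).2,
    (engFn_nice hw hu huc).1.integrable_of_hasCompactSupport (engFn_nice hw hu huc).2⟩
  intro m
  induction m with
  | zero =>
    intro k hk u hu huc
    have hkn : k < n := by omega
    have hS := fun (v : (Euc n) → ℝ) h h' => orthant hn hw hw0 hwr hwm (u := v) h h'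
    have e : k + 1 = n := by omega
    rw [posInt_split (hint u hu huc).1 hkn, posInt_split (hint u hu huc).2 hkn,
      ← massFn_comp hwr, ← engFn_comp hwr, e, pow_zero, mul_one]
    set u' := u ∘ flipE ⟨k, hkn⟩
    have h1 := hS u hu huc
    have h2 := hS u' (hu.comp (flipE _).toContinuousLinearEquiv.contDiff)
      (huc.comp_homeomorph (flipE _).toHomeomorph)
    have h3 := Real.rpow_add_le_add_rpow (posInt_massFn_nonneg hw0 u n)
      (posInt_massFn_nonneg hw0 u' n) hq0 hq1
    have hc : 0 ≤ sharpConst n / 2 := by unfold sharpConst; positivity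
    nlinarith [mul_le_mul_of_nonneg_left h3 hc]
  | succ m ih =>
    intro k hk u hu huc
    have hk1 : k + 1 < n := by omega
    obtain ⟨R, hRk, hR⟩ := exists_bisect (hint u hu huc).1 hk1
    set u1 := u ∘ R with hu1
    have h1d : ContDiff ℝ 1 u1 := hu.comp R.toContinuousLinearEquiv.contDiff
    have h1c : HasCompactSupport u1 := huc.comp_homeomorph R.toHomeomorph
    set Rj := flipE (⟨k, by omega⟩ : Fin n)
    set u2 := u1 ∘ Rj
    have h2d : ContDiff ℝ 1 u2 := h1d.comp Rj.toContinuousLinearEquiv.contDiff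
    have h2c : HasCompactSupport u2 := h1c.comp_homeomorph Rj.toHomeomorph
    have hinv : ∀ F : (Euc n) → ℝ, posInt k (F ∘ R) = posInt k F := by
      intro F
      rw [posInt, posInt, ← R.measurePreserving.integral_comp R.toHomeomorph.measurableEmbedding
        ((posSet n k).indicator F)]
      refine integral_congr_ae (Eventually.of_forall fun y => ?_)
      by_cases hy : y ∈ posSet n k <;> simp [hy, hRk y]
    have eM : posInt (k + 1) (massFn w u1) + posInt (k + 1) (massFn w u2) =
        posInt k (massFn w u) := by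
      rw [show massFn w u2 = massFn w u1 ∘ Rj from massFn_comp hwr _ _,
        ← posInt_split (hint u1 h1d h1c).1, hu1, massFn_comp hwr, hinv]
    have eE : posInt (k + 1) (engFn w u1) + posInt (k + 1) (engFn w u2) =
        posInt k (engFn w u) := by
      rw [show engFn w u2 = engFn w u1 ∘ Rj from engFn_comp hwr _ _,
        ← posInt_split (hint u1 h1d h1c).2, hu1, engFn_comp hwr, hinv]
    have eh : posInt (k + 1) (massFn w u1) = posInt k (massFn w u) / 2 := by
      rw [hu1, massFn_comp hwr]; exact hR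
    have eh2 : posInt (k + 1) (massFn w u2) = posInt k (massFn w u) / 2 := by linarith
    have i1 := ih (k + 1) (by omega) u1 h1d h1c
    have i2 := ih (k + 1) (by omega) u2 h2d h2c
    rw [eh] at i1
    rw [eh2] at i2
    have e2 : (2 : ℝ) ^ (1 / n : ℝ) * posInt k (massFn w u) ^ q =
        2 * (posInt k (massFn w u) / 2) ^ q := by
      rw [Real.div_rpow (posInt_massFn_nonneg hw0 u k) two_pos.le,
        show (1 / n : ℝ) = 1 - q by simp only [hq]; field_simp; ring, Real.rpow_sub two_pos,
        Real.rpow_one]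
      ring
    calc sharpConst n / 2 * ((2 : ℝ) ^ (1 / n : ℝ)) ^ (m + 1) * posInt k (massFn w u) ^ q
        = sharpConst n / 2 * ((2 : ℝ) ^ (1 / n : ℝ)) ^ m *
            ((2 : ℝ) ^ (1 / n : ℝ) * posInt k (massFn w u) ^ q) := by ring
      _ ≤ _ := by rw [e2]; linarith

include hn hw hw0 hwr hwm in
/-- The Sobolev inequality for all functions. -/
theorem sobolev_all {u : (Euc n) → ℝ} (hu : ContDiff ℝ 1 u) (huc : HasCompactSupport u) :
    (2 : ℝ) ^ (-(1 / n : ℝ)) * sharpConst n *
      (∫ x, |u x| ^ ((n : ℝ) / (n - 1)) * w x ^ n) ^ (((n : ℝ) - 1) / n) ≤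
      ∫ x, ‖fderiv ℝ u x‖ * w x ^ (n - 1) := by
  have h := bisected hn hw hw0 hwr hwm (n - 1) 0 (by omega) u hu huc
  have hu0 : posSet n 0 = univ := by ext; simp [posSet]
  simp only [posInt, hu0, indicator_univ, massFn, engFn] at h
  refine le_trans (le_of_eq ?_) h
  congr 1
  rw [← Real.rpow_natCast, ← Real.rpow_mul two_pos.le, Nat.cast_sub (by omega : 1 ≤ n),
    show (1 / n : ℝ) * ((n : ℝ) - (1 : ℕ)) = 1 + -(1 / n : ℝ) by
      have : (n : ℝ) ≠ 0 := by positivity
      push_cast; field_simp; ring,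
    Real.rpow_add two_pos, Real.rpow_one]
  ring

include hn hw hw0 hwr hwm in
/-- The isoperimetric inequality for all bounded sets. -/
theorem isoperimetric_all {Ω : Set (Euc n)} (hΩ : MeasurableSet Ω) (hΩb : Bornology.IsBounded Ω)
    (v : ℕ → (Euc n) → ℝ) (hv : ∀ j, ContDiff ℝ 1 (v j) ∧ HasCompactSupport (v j))
    (hlim : Tendsto (fun j => ∫ x, |v j x - Ω.indicator 1 x|) atTop (𝓝 0)) {A : ℝ}
    (hA : ∀ j, ∫ x, ‖fderiv ℝ (v j) x‖ * w x ^ (n - 1) ≤ A) :
    (2 : ℝ) ^ (-(1 / n : ℝ)) * sharpConst n *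
      (∫ x in Ω, w x ^ n) ^ (((n : ℝ) - 1) / n) ≤ A := by
  refine iso_of_sobolev hn hw hw0 hΩ hΩb (mul_pos (by positivity) ?_) v (fun j => (hv j).1)
    (fun j => (hv j).2) hlim fun j =>
    (sobolev_all hn hw hw0 hwr hwm (hv j).1 (hv j).2).trans (hA j)
  rw [sharpConst, volume_ball_eq, ENNReal.toReal_ofReal (ballMass_pos n).le]
  have := ballMass_pos n
  positivity

end Sobolev

/-- Arbitrary sets for radial factors on balls. -/
theorem isoperimetric_radial_all (hn : 2 ≤ n) {φ : ℝ → ℝ} {R r : ℝ} (hr : 0 ≤ r) (hrR : r < R)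
    (hφ : ContDiffOn ℝ 1 φ (Iio (R ^ 2))) (h0 : 0 < φ 0)
    (hd : ∀ t ∈ Ico 0 (R ^ 2), 0 ≤ deriv φ t) {Ω : Set (Euc n)}
    (hΩ : MeasurableSet Ω) (hΩr : Ω ⊆ Metric.closedBall 0 r) (v : ℕ → (Euc n) → ℝ)
    (hv : ∀ j, ContDiff ℝ 1 (v j) ∧ tsupport (v j) ⊆ Metric.closedBall 0 r)
    (hlim : Tendsto (fun j => ∫ x, |v j x - Ω.indicator 1 x|) atTop (𝓝 0)) {A : ℝ}
    (hA : ∀ j, ∫ x, ‖fderiv ℝ (v j) x‖ * φ (‖x‖ ^ 2) ^ (n - 1) ≤ A) :
    (2 : ℝ) ^ (-(1 / n : ℝ)) * sharpConst n *
      (∫ x in Ω, φ (‖x‖ ^ 2) ^ n) ^ (((n : ℝ) - 1) / n) ≤ A := by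
  have hab : r ^ 2 < R ^ 2 := pow_lt_pow_left₀ hrR hr two_ne_zero
  obtain ⟨ψ, hψ, hψ0, hψd, hψe⟩ := exists_extension (sq_nonneg r) hab hφ h0
    fun t ht => hd t ⟨ht.1, ht.2.trans_lt hab⟩
  set w : (Euc n) → ℝ := fun x => ψ (‖x‖ ^ 2) with hw
  have hwe : ∀ x ∈ Metric.closedBall (0 : Euc n) r, w x = φ (‖x‖ ^ 2) := fun x hx =>
    hψe _ ⟨sq_nonneg _, pow_le_pow_left₀ (norm_nonneg x) (mem_closedBall_zero_iff.1 hx) 2⟩
  have hwm : ∀ x i, 0 ≤ x i * fderiv ℝ w x (EuclideanSpace.single i 1) := fun x i => by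
    have h := ((hψ.differentiable one_ne_zero (‖x‖ ^ 2)).hasDerivAt.comp_hasFDerivAt x
      (hasStrictFDerivAt_norm_sq x).hasFDerivAt).fderiv
    rw [show fderiv ℝ w x = _ from h]
    simp [EuclideanSpace.inner_single_right]
    nlinarith [mul_nonneg (hψd (‖x‖ ^ 2)) (sq_nonneg (x i))]
  have h := isoperimetric_all hn (hψ.comp (contDiff_norm_sq ℝ)) (fun x => hψ0 _ (sq_nonneg _))
    (fun x y hxy => by simp only [Function.comp, hxy]) hwm hΩ
    (Metric.isBounded_closedBall.subset hΩr) v
    (fun j => ⟨(hv j).1, (isCompact_closedBall 0 r).of_isClosed_subset (isClosed_tsupport _) (hv j).2⟩)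
    hlim (A := A) fun j => (le_of_eq ?_).trans (hA j)
  · refine le_trans (le_of_eq ?_) h
    congr 2
    exact setIntegral_congr_fun hΩ fun x hx => by
      show φ (‖x‖ ^ 2) ^ n = w x ^ n
      rw [hwe x (hΩr hx)]
  · refine integral_congr_ae (Eventually.of_forall fun x => ?_)
    by_cases hx : x ∈ tsupport (v j)
    · show ‖fderiv ℝ (v j) x‖ * w x ^ (n - 1) = _
      rw [hwe x ((hv j).2 hx)]
    · simp [(notMem_tsupport_iff_eventuallyEq.1 hx).fderiv_eq]

end Vale.Agent.P219
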