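import Vale.Agent.P219.Knothe

/-!
# P219: the volume of the ball by slices, and iterated integrals
-/

noncomputable section

open MeasureTheory Set Filter Topology
open scoped ENNReal

namespace Vale.Agent.P219

/-- The sum of squares ball in coordinates. -/
def sqBall (n : ℕ) (a : ℝ) : Set (Fin n → ℝ) := {x | ∑ i, x i ^ 2 ≤ a}

lemma isClosed_sqBall (n : ℕ) (a : ℝ) : IsClosed (sqBall n a) :=
  isClosed_le (by fun_prop) continuous_const

lemma volume_sqBall (n : ℕ) {a : ℝ} (ha : 0 ≤ a) :
    volume (sqBall n a) =
      ENNReal.ofReal (Real.sqrt a ^ n) * volume (Metric.ball (0 : EuclideanSpace ℝ (Fin n)) 1) := by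
  have h : (WithLp.ofLp : EuclideanSpace ℝ (Fin n) → Fin n → ℝ) ⁻¹' sqBall n a =
      Metric.closedBall 0 (Real.sqrt a) := by
    ext x
    rw [mem_preimage, Metric.mem_closedBall, dist_zero_right, EuclideanSpace.norm_eq,
      Real.sqrt_le_sqrt_iff ha]
    simp [sqBall]
  rw [← (PiLp.volume_preserving_ofLp (Fin n)).measure_preimage
    (isClosed_sqBall n a).measurableSet.nullMeasurableSet, h,
    Measure.addHaar_closedBall volume 0 (Real.sqrt_nonneg a), finrank_euclideanSpace_fin]

/-- The slices give the volume of the ball. -/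
theorem volume_ball_eq : ∀ n, volume (Metric.ball (0 : EuclideanSpace ℝ (Fin n)) 1) =
    ENNReal.ofReal (ballMass n)
  | 0 => by
    have h1 : Metric.ball (0 : EuclideanSpace ℝ (Fin 0)) 1 =
        (WithLp.ofLp : EuclideanSpace ℝ (Fin 0) → Fin 0 → ℝ) ⁻¹' univ := by
      ext x; simp [Subsingleton.elim x 0]
    rw [h1, (PiLp.volume_preserving_ofLp (Fin 0)).measure_preimage
      MeasurableSet.univ.nullMeasurableSet, ballMass]
    simp [volume_pi, Measure.pi_empty_univ]
  | n + 1 => by
    have ih := volume_ball_eq n
    have h1 := volume_sqBall (n + 1) zero_le_one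
    rw [Real.sqrt_one, one_pow, ENNReal.ofReal_one, one_mul] at h1
    rw [← h1, ← (volume_preserving_piFinSuccAbove (fun _ : Fin (n + 1) => ℝ) 0).symm.measure_preimage
      (isClosed_sqBall _ _).measurableSet.nullMeasurableSet]
    set e := (MeasurableEquiv.piFinSuccAbove (fun _ : Fin (n + 1) => ℝ) 0).symm with he
    rw [Measure.volume_eq_prod, Measure.prod_apply
      ((isClosed_sqBall _ _).measurableSet.preimage e.measurable)]
    have hsl : ∀ t : ℝ, volume (Prod.mk t ⁻¹' (e ⁻¹' sqBall (n + 1) 1)) =
        (Icc (-1 : ℝ) 1).indicator (fun t => ENNReal.ofReal (sect n t * ballMass n)) t := by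
      intro t
      have hset : Prod.mk t ⁻¹' (e ⁻¹' sqBall (n + 1) 1) = sqBall n (1 - t ^ 2) := by
        ext z
        have hz : e (t, z) = Fin.cons t z := by
          simp [he, MeasurableEquiv.piFinSuccAbove_symm_apply, Fin.insertNthEquiv]
        simp only [mem_preimage, sqBall, mem_ofPred_eq, hz, Fin.sum_univ_succ, Fin.cons_zero,
          Fin.cons_succ]
        constructor <;> intro h <;> linarith
      rw [hset]
      by_cases ht : t ∈ Icc (-1 : ℝ) 1
      · rw [indicator_of_mem ht, volume_sqBall n (by nlinarith [ht.1, ht.2]), ih,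
          ← ENNReal.ofReal_mul (by positivity)]
        rfl
      · rw [indicator_of_notMem ht]
        convert measure_empty (μ := (volume : Measure (Fin n → ℝ)))
        refine eq_empty_of_forall_notMem fun z hz => ht ?_
        have h0 : 0 ≤ ∑ i, z i ^ 2 := Finset.sum_nonneg fun i _ => sq_nonneg _
        have hz' : ∑ i, z i ^ 2 ≤ 1 - t ^ 2 := hz
        exact abs_le.1 ((sq_le_one_iff_abs_le_one t).1 (by linarith))
    simp only [hsl]
    rw [lintegral_indicator measurableSet_Icc, ← ofReal_integral_eq_lintegral_ofReal
      (f := fun t => sect n t * ballMass n)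
      (((continuous_sect n).mul continuous_const).integrableOn_Icc)
      (Eventually.of_forall fun t => mul_nonneg (sect_nonneg n t) (ballMass_pos n).le),
      integral_Icc_eq_integral_Ioc, ← intervalIntegral.integral_of_le (by norm_num),
      intervalIntegral.integral_mul_const]
    rfl

lemma boxInt_add {L : ℝ} : ∀ (n : ℕ) {f g : (Fin n → ℝ) → ℝ}, Continuous f → Continuous g →
    ∀ c : ℝ, boxInt L n (fun x => f x + c * g x) = boxInt L n f + c * boxInt L n g
  | 0, _, _, _, _, _ => rfl
  | n + 1, f, g, hf, hg, c => by
    have hc : ∀ {f : (Fin (n + 1) → ℝ) → ℝ}, Continuous f →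
        Continuous fun t : ℝ => boxInt L n fun z => f (Fin.cons t z) := fun {f} hf =>
      continuous_boxInt n (f := fun t z => f (Fin.cons t z))
        (hf.comp (Continuous.finCons continuous_fst continuous_snd))
    have hs : ∀ t : ℝ, (boxInt L n fun z => f (Fin.cons t z) + c * g (Fin.cons t z)) =
        boxInt L n (fun z => f (Fin.cons t z)) + c * boxInt L n (fun z => g (Fin.cons t z)) :=
      fun t => boxInt_add n (hf.comp (Continuous.finCons continuous_const continuous_id))
        (hg.comp (Continuous.finCons continuous_const continuous_id)) c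
    show (∫ t in -L..L, boxInt L n fun z => f (Fin.cons t z) + c * g (Fin.cons t z)) = _
    simp only [hs]
    rw [intervalIntegral.integral_add ((hc hf).intervalIntegrable _ _)
      (((hc hg).const_mul c).intervalIntegrable _ _), intervalIntegral.integral_const_mul]
    rfl

lemma boxInt_eq {L : ℝ} (hL : 0 < L) : ∀ (n : ℕ) {f : (Fin n → ℝ) → ℝ}, Continuous f →
    HasCompactSupport f → (∀ x, x ∉ cube L n → f x = 0) → boxInt L n f = ∫ x, f x
  | 0, f, _, _, _ => by
    rw [boxInt, Measure.volume_pi_eq_dirac Fin.elim0, integral_dirac]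
  | n + 1, f, hf, hs, h0 => by
    have hint : Integrable f := hf.integrable_of_hasCompactSupport hs
    set e := (MeasurableEquiv.piFinSuccAbove (fun _ : Fin (n + 1) => ℝ) 0).symm with he
    have hmp : MeasurePreserving e :=
      (volume_preserving_piFinSuccAbove (fun _ : Fin (n + 1) => ℝ) 0).symm _
    have hec : ∀ q : ℝ × (Fin n → ℝ), e q = Fin.cons q.1 q.2 := fun q => by
      simp [he, MeasurableEquiv.piFinSuccAbove_symm_apply, Fin.insertNthEquiv]
    rw [← hmp.integral_comp' (g := f), Measure.volume_eq_prod,
      integral_prod (fun q => f (e q)) ((hmp.integrable_comp_emb e.measurableEmbedding).2 hint)]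
    simp only [hec]
    have hin : ∀ t : ℝ, (boxInt L n fun z => f (Fin.cons t z)) = ∫ z, f (Fin.cons t z) := by
      intro t
      have hcc : Continuous fun z : Fin n → ℝ => f (Fin.cons t z) :=
        hf.comp (Continuous.finCons continuous_const continuous_id)
      refine boxInt_eq hL n hcc (hs.comp_isClosedEmbedding (g := fun z => Fin.cons t z) ?_)
        fun z hz => h0 _ fun hx => hz fun i => by simpa using hx i.succ
      refine Topology.IsClosedEmbedding.of_continuous_injective_isClosedMap
        (Continuous.finCons continuous_const continuous_id)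
        (fun a b h => (Fin.cons_inj.1 h).2) fun C hC => ?_
      have : (fun z : Fin n → ℝ => (Fin.cons t z : Fin (n + 1) → ℝ)) '' C =
          {x | x 0 = t} ∩ Fin.tail ⁻¹' C := by
        ext x
        constructor
        · rintro ⟨z, hz, rfl⟩; exact ⟨rfl, by simpa using hz⟩
        · rintro ⟨h1, h2⟩
          subst h1
          exact ⟨_, h2, Fin.cons_self_tail x⟩
      rw [this]
      exact (isClosed_eq (continuous_apply 0) continuous_const).inter (hC.preimage
        (continuous_pi fun i => continuous_apply i.succ))
    show (∫ t in -L..L, boxInt L n fun z => f (Fin.cons t z)) = _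
    simp only [hin]
    rw [intervalIntegral.integral_of_le (by linarith)]
    refine setIntegral_eq_integral_of_forall_compl_eq_zero fun t ht => ?_
    refine integral_eq_zero_of_ae (Eventually.of_forall fun z => h0 _ fun hx => ht ?_)
    have := abs_lt.1 (hx 0)
    rw [Fin.cons_zero] at this
    exact ⟨this.1, this.2.le⟩

end Vale.Agent.P219
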