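import Mathlib

/-!
# P219: the notions used by the statement
-/

noncomputable section

open MeasureTheory Set Filter Topology

namespace Vale.Agent.P219

variable {n : ℕ}

/-- The point with coordinate `i` negated. -/
def negCoord (i : Fin n) (x : EuclideanSpace ℝ (Fin n)) : EuclideanSpace ℝ (Fin n) :=
  WithLp.toLp 2 (Function.update x.ofLp i (-x i))

/-- The sharp Euclidean constant `n |B|^(1/n)`. -/
def sharpConst (n : ℕ) : ℝ :=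
  n * (volume (Metric.ball (0 : EuclideanSpace ℝ (Fin n)) 1)).toReal ^ (1 / n : ℝ)

/-- `A` bounds the relaxed weighted perimeter of `Ω` with competitors supported in `S`. -/
def PerimeterLE (w : EuclideanSpace ℝ (Fin n) → ℝ) (S Ω : Set (EuclideanSpace ℝ (Fin n)))
    (A : ℝ) : Prop :=
  ∃ v : ℕ → EuclideanSpace ℝ (Fin n) → ℝ,
    (∀ j, ContDiff ℝ 1 (v j) ∧ HasCompactSupport (v j) ∧ tsupport (v j) ⊆ S) ∧
    Tendsto (fun j => ∫ x, |v j x - Ω.indicator 1 x|) atTop (𝓝 0) ∧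
    ∀ j, ∫ x, ‖fderiv ℝ (v j) x‖ * w x ^ (n - 1) ≤ A

/-- A positive `C¹` factor, symmetric and nondecreasing away from the coordinate hyperplanes. -/
def GoodFactor (w : EuclideanSpace ℝ (Fin n) → ℝ) : Prop :=
  ContDiff ℝ 1 w ∧ (∀ x, 0 < w x) ∧ (∀ i x, w (negCoord i x) = w x) ∧
    ∀ x i, 0 ≤ x i * fderiv ℝ w x (EuclideanSpace.single i 1)

/-- The sharp Sobolev inequality for symmetric functions. -/
def SobolevPart : Prop :=
  ∀ n : ℕ, 2 ≤ n → ∀ w u : EuclideanSpace ℝ (Fin n) → ℝ, GoodFactor w → ContDiff ℝ 1 u →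
    HasCompactSupport u → (∀ i x, u (negCoord i x) = u x) →
    sharpConst n * (∫ x, |u x| ^ ((n : ℝ) / (n - 1)) * w x ^ n) ^ (((n : ℝ) - 1) / n) ≤
      ∫ x, ‖fderiv ℝ u x‖ * w x ^ (n - 1)

/-- The sharp isoperimetric inequality for symmetric sets. -/
def IsoperimetricPart : Prop :=
  ∀ n : ℕ, 2 ≤ n → ∀ (w : EuclideanSpace ℝ (Fin n) → ℝ) (Ω : Set (EuclideanSpace ℝ (Fin n)))
    (A : ℝ), GoodFactor w → MeasurableSet Ω → Bornology.IsBounded Ω →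
    (∀ i x, x ∈ Ω → negCoord i x ∈ Ω) → PerimeterLE w univ Ω A →
    sharpConst n * (∫ x in Ω, w x ^ n) ^ (((n : ℝ) - 1) / n) ≤ A

/-- The same for radial factors given on a ball. -/
def RadialPart : Prop :=
  ∀ n : ℕ, 2 ≤ n → ∀ (φ : ℝ → ℝ) (R r : ℝ) (Ω : Set (EuclideanSpace ℝ (Fin n))) (A : ℝ),
    0 ≤ r → r < R → ContDiffOn ℝ 1 φ (Iio (R ^ 2)) → 0 < φ 0 →
    (∀ t ∈ Ico 0 (R ^ 2), 0 ≤ deriv φ t) → MeasurableSet Ω → Ω ⊆ Metric.closedBall 0 r →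
    (∀ i x, x ∈ Ω → negCoord i x ∈ Ω) →
    PerimeterLE (fun x => φ (‖x‖ ^ 2)) (Metric.closedBall 0 r) Ω A →
    sharpConst n * (∫ x in Ω, φ (‖x‖ ^ 2) ^ n) ^ (((n : ℝ) - 1) / n) ≤ A

/-- Arbitrary sets for radial factors on balls, up to the factor `2^(-1/n)`. -/
def RadialAllPart : Prop :=
  ∀ n : ℕ, 2 ≤ n → ∀ (φ : ℝ → ℝ) (R r : ℝ) (Ω : Set (EuclideanSpace ℝ (Fin n))) (A : ℝ),
    0 ≤ r → r < R → ContDiffOn ℝ 1 φ (Iio (R ^ 2)) → 0 < φ 0 →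
    (∀ t ∈ Ico 0 (R ^ 2), 0 ≤ deriv φ t) → MeasurableSet Ω → Ω ⊆ Metric.closedBall 0 r →
    PerimeterLE (fun x => φ (‖x‖ ^ 2)) (Metric.closedBall 0 r) Ω A →
    (2 : ℝ) ^ (-(1 / n : ℝ)) * sharpConst n *
      (∫ x in Ω, φ (‖x‖ ^ 2) ^ n) ^ (((n : ℝ) - 1) / n) ≤ A

end Vale.Agent.P219
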