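import Vale.Agent.P219.Profile

/-!
# P219: Knothe maps of even densities onto the ball

For a continuous positive density on the cube `[-L, L]^n` that is even in every coordinate there is
a triangular map into the unit ball whose components have the signs of the coordinates and whose
diagonal derivatives have product the normalised density times the mass of the ball.
-/

noncomputable section

open MeasureTheory Set Filter Topology

namespace Vale.Agent.P219

/-- The iterated integral over the cube `[-L, L]^n`. -/
def boxInt (L : ℝ) : (n : ℕ) → ((Fin n → ℝ) → ℝ) → ℝ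
  | 0, f => f Fin.elim0
  | n + 1, f => ∫ t in -L..L, boxInt L n fun z => f (Fin.cons t z)

/-- The product of the masses of the sections of the ball. -/
def ballMass : ℕ → ℝ
  | 0 => 1
  | n + 1 => sectMass n * ballMass n

/-- The open cube. -/
def cube (L : ℝ) (n : ℕ) : Set (Fin n → ℝ) := {x | ∀ i, |x i| < L}

lemma ballMass_pos : ∀ n, 0 < ballMass n
  | 0 => one_pos
  | n + 1 => mul_pos (sectMass_pos n) (ballMass_pos n)

variable {L : ℝ}

lemma continuous_boxInt : ∀ (n : ℕ) {P : Type} [TopologicalSpace P] {f : P → (Fin n → ℝ) → ℝ},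
    Continuous (Function.uncurry f) → Continuous fun p => boxInt L n (f p)
  | 0, P, _, f, hf => hf.comp (continuous_id.prodMk continuous_const)
  | n + 1, P, _, f, hf => by
    have h := continuous_boxInt n (P := P × ℝ)
      (f := fun q z => f q.1 (Fin.cons q.2 z))
      (hf.comp ((continuous_fst.comp continuous_fst).prodMk
        (Continuous.finCons (continuous_snd.comp continuous_fst) continuous_snd)))
    exact intervalIntegral.continuous_parametric_intervalIntegral_of_continuous'
      (f := fun p t => boxInt L n fun z => f p (Fin.cons t z)) h _ _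

lemma boxInt_pos (hL : 0 < L) : ∀ (n : ℕ) {f : (Fin n → ℝ) → ℝ},
    Continuous f → (∀ x, 0 < f x) → 0 < boxInt L n f
  | 0, f, _, h => h _
  | n + 1, f, hf, h => by
    have hc : Continuous fun t : ℝ => boxInt L n fun z => f (Fin.cons t z) :=
      continuous_boxInt n (f := fun t z => f (Fin.cons t z))
        (hf.comp (Continuous.finCons continuous_fst continuous_snd))
    exact intervalIntegral.intervalIntegral_pos_of_pos_on (hc.intervalIntegrable _ _)
      (fun t _ => boxInt_pos hL n (hf.comp (Continuous.finCons continuous_const continuous_id))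
        fun z => h _) (by linarith)

/-- The map of one coordinate: an even marginal is pushed to the section density. -/
lemma exists_profile (hL : 0 < L) (n : ℕ) {P : Type} [TopologicalSpace P] (m : P → ℝ → ℝ)
    (hmc : Continuous (Function.uncurry m)) (hmpos : ∀ p t, 0 < m p t)
    (hmeven : ∀ p t, m p (-t) = m p t) :
    ∃ s ds : P → ℝ → ℝ, Continuous (Function.uncurry s) ∧ (∀ p t, s p t ^ 2 ≤ 1) ∧
      (∀ p t, 0 ≤ t → 0 ≤ s p t) ∧ (∀ p t, t ≤ 0 → s p t ≤ 0) ∧
      ContinuousOn (Function.uncurry ds) (univ ×ˢ Ioo (-L) L) ∧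
      ∀ p, ∀ t ∈ Ioo (-L) L, HasDerivAt (s p) (ds p t) t ∧ 0 ≤ ds p t ∧
        ds p t * sect n (s p t) = sectMass n * (m p t / ∫ r in -L..L, m p r) := by
  have hmp : ∀ p, Continuous (m p) := fun p => hmc.comp (Continuous.prodMk_right p)
  set M : P → ℝ := fun p => ∫ t in -L..L, m p t with hM
  have hMpos : ∀ p, 0 < M p := fun p => intervalIntegral.intervalIntegral_pos_of_pos_on
    ((hmp p).intervalIntegrable _ _) (fun t _ => hmpos p t) (by linarith)
  set F : P → ℝ → ℝ := fun p t => (∫ r in -L..clamp (-L) L t, m p r) / M p with hF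
  have hFc : Continuous (Function.uncurry F) := by
    refine Continuous.div ?_ ((intervalIntegral.continuous_parametric_intervalIntegral_of_continuous'
      hmc _ _).comp continuous_fst) fun q => (hMpos q.1).ne'
    exact intervalIntegral.continuous_parametric_intervalIntegral_of_continuous
      (f := fun (q : P × ℝ) r => m q.1 r)
      (hmc.comp ((continuous_fst.comp continuous_fst).prodMk continuous_snd))
      ((continuous_clamp _ _).comp continuous_snd)
  have hF_lt : ∀ p {a b : ℝ}, -L ≤ a → a < b → b ≤ L → F p a < F p b := by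
    intro p a b ha hab hb
    have hca : clamp (-L) L a = a := clamp_of_mem ⟨ha, by linarith⟩
    have hcb : clamp (-L) L b = b := clamp_of_mem ⟨by linarith, hb⟩
    have h := intervalIntegral.integral_add_adjacent_intervals (μ := volume)
      ((hmp p).intervalIntegrable (-L) a) ((hmp p).intervalIntegrable a b)
    have h2 : 0 < ∫ r in a..b, m p r := intervalIntegral.intervalIntegral_pos_of_pos_on
      ((hmp p).intervalIntegrable _ _) (fun t _ => hmpos p t) hab
    simp only [hF, hca, hcb]
    exact (div_lt_div_iff_of_pos_right (hMpos p)).2 (by linarith)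
  have hF_L : ∀ p, F p L = 1 := fun p => by
    simp only [hF, clamp_of_mem (right_mem_Icc.2 (by linarith : -L ≤ L))]
    exact div_self (hMpos p).ne'
  have hF_nL : ∀ p, F p (-L) = 0 := fun p => by
    simp only [hF, clamp_of_mem (left_mem_Icc.2 (by linarith : -L ≤ L)),
      intervalIntegral.integral_same, zero_div]
  have hF_0 : ∀ p, F p 0 = 1 / 2 := fun p => by
    simp only [hF, clamp_of_mem (show (0 : ℝ) ∈ Icc (-L) L from ⟨by linarith, hL.le⟩),
      integral_half (hmp p) (hmeven p) L]
    have := (hMpos p).ne'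
    rw [← show M p = ∫ t in -L..L, m p t from rfl]
    field_simp
  have hFmono : ∀ p, Monotone (F p) := by
    intro p a b hab
    have h1 : ∀ t, F p t = F p (clamp (-L) L t) := fun t => by
      simp only [hF, clamp_of_mem (clamp_mem (by linarith : -L ≤ L) t)]
    rw [h1 a, h1 b]
    rcases (clamp_mono (-L) L hab).eq_or_lt with h | h
    · rw [h]
    · exact (hF_lt p (clamp_mem (by linarith : -L ≤ L) a).1 h
        (clamp_mem (by linarith : -L ≤ L) b).2).le
  have hF01 : ∀ p t, F p t ∈ Icc (0 : ℝ) 1 := fun p t => by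
    have h1 : F p t = F p (clamp (-L) L t) := by
      simp only [hF, clamp_of_mem (clamp_mem (by linarith : -L ≤ L) t)]
    rw [h1]
    exact ⟨hF_nL p ▸ hFmono p (clamp_mem (by linarith : -L ≤ L) t).1,
      hF_L p ▸ hFmono p (clamp_mem (by linarith : -L ≤ L) t).2⟩
  have hFI : ∀ p {t}, |t| < L → F p t ∈ Ioo (0 : ℝ) 1 := fun p t ht =>
    ⟨hF_nL p ▸ hF_lt p le_rfl (abs_lt.1 ht).1 (abs_lt.1 ht).2.le,
      hF_L p ▸ hF_lt p (abs_lt.1 ht).1.le (abs_lt.1 ht).2 le_rfl⟩
  set s : P → ℝ → ℝ := fun p t => inv n (F p t) with hs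
  have hsc : Continuous (Function.uncurry s) := (continuous_inv n).comp hFc
  refine ⟨s, fun p t => sectMass n / sect n (s p t) * (m p t / M p), hsc,
    fun p t => (sq_le_one_iff_abs_le_one _).2 (abs_le.2 (inv_mem n (hF01 p t))),
    fun p t ht => inv_half n ▸ (inv_mono n).monotone (hF_0 p ▸ hFmono p ht),
    fun p t ht => inv_half n ▸ (inv_mono n).monotone (hF_0 p ▸ hFmono p ht), ?_,
    fun p t ht => ⟨?_, mul_nonneg (div_nonneg (sectMass_pos n).le (sect_nonneg n _))
      (div_nonneg (hmpos _ _).le (hMpos p).le), ?_⟩⟩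
  · refine ((continuous_const.continuousOn).div
      ((continuous_sect n).comp hsc).continuousOn fun q hq => ?_).mul
      (hmc.continuousOn.div (((intervalIntegral.continuous_parametric_intervalIntegral_of_continuous'
        hmc _ _).comp continuous_fst).continuousOn) fun q _ => (hMpos q.1).ne')
    exact (sect_pos n (inv_mem_Ioo n (hFI q.1 (abs_lt.2 hq.2)))).ne'
  · have hFd : HasDerivAt (F p) (m p t / M p) t := by
      refine ((((hmp p).integral_hasStrictDerivAt (-L) t).hasDerivAt).div_const _).congr_of_eventuallyEq ?_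
      filter_upwards [Ioo_mem_nhds ht.1 ht.2] with r hr
      simp only [hF, clamp_of_mem (Ioo_subset_Icc_self hr)]
    exact (hasDerivAt_inv n (hFI p (abs_lt.2 ht))).comp t hFd
  · rw [mul_right_comm, div_mul_cancel₀ _ (sect_pos n (inv_mem_Ioo n (hFI p (abs_lt.2 ht)))).ne']

/-- A triangular map of the cube into the unit ball pushing `ρ` to the uniform density. -/
structure Transport {P : Type} [TopologicalSpace P] (L : ℝ) (n : ℕ) (ρ : P → (Fin n → ℝ) → ℝ)
    (Y D : P → (Fin n → ℝ) → Fin n → ℝ) : Prop where
  cont : Continuous (Function.uncurry Y)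
  norm_le : ∀ p x, ∑ k, Y p x k ^ 2 ≤ 1
  nonneg : ∀ p x k, 0 ≤ x k → 0 ≤ Y p x k
  nonpos : ∀ p x k, x k ≤ 0 → Y p x k ≤ 0
  contD : ContinuousOn (Function.uncurry D) (univ ×ˢ cube L n)
  deriv : ∀ p, ∀ x ∈ cube L n, ∀ k,
    HasDerivAt (fun t => Y p (Function.update x k t) k) (D p x k) (x k)
  D_nonneg : ∀ p, ∀ x ∈ cube L n, ∀ k, 0 ≤ D p x k
  prod_eq : ∀ p, ∀ x ∈ cube L n, ∏ k, D p x k = ballMass n * ρ p x / boxInt L n (ρ p)

/-- Existence of the triangular map. -/
theorem exists_transport (hL : 0 < L) : ∀ (n : ℕ) {P : Type} [TopologicalSpace P]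
    (ρ : P → (Fin n → ℝ) → ℝ), Continuous (Function.uncurry ρ) → (∀ p x, 0 < ρ p x) →
    (∀ p x k, ρ p (Function.update x k (-x k)) = ρ p x) → ∃ Y D, Transport L n ρ Y D := by
  intro n
  induction n with
  | zero =>
    intro P _ ρ _ hpos _
    refine ⟨fun _ _ => Fin.elim0, fun _ _ => Fin.elim0, ?_, fun _ _ => by simp, fun _ _ k => k.elim0,
      fun _ _ k => k.elim0, ?_, fun _ _ _ k => k.elim0, fun _ _ _ k => k.elim0, fun p x _ => ?_⟩
    · exact continuous_const
    · exact continuousOn_const
    · have hx : x = Fin.elim0 := funext fun i => i.elim0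
      simp [ballMass, boxInt, hx, (hpos p _).ne']
  | succ n ih =>
    intro P _ ρ hρ hpos heven
    set ρ' : P × ℝ → (Fin n → ℝ) → ℝ := fun q z => ρ q.1 (Fin.cons q.2 z) with hρ'
    have hρ'c : Continuous (Function.uncurry ρ') :=
      hρ.comp ((continuous_fst.comp continuous_fst).prodMk
        (Continuous.finCons (continuous_snd.comp continuous_fst) continuous_snd))
    obtain ⟨Y', D', h'⟩ := ih ρ' hρ'c (fun q z => hpos _ _) fun q z k => by
      have := heven q.1 (Fin.cons q.2 z) k.succ
      simp only [Fin.cons_succ, ← Fin.cons_update] at this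
      exact this
    set m : P → ℝ → ℝ := fun p t => boxInt L n (ρ' (p, t)) with hm
    have hmc : Continuous (Function.uncurry m) := continuous_boxInt n hρ'c
    have hmp : ∀ p, Continuous (m p) := fun p => hmc.comp (Continuous.prodMk_right p)
    have hmpos : ∀ p t, 0 < m p t := fun p t =>
      boxInt_pos hL n (hρ'c.comp (Continuous.prodMk_right (p, t))) fun z => hpos _ _
    have hmeven : ∀ p t, m p (-t) = m p t := by
      intro p t
      have : ρ' (p, -t) = ρ' (p, t) := funext fun z => by
        have h := heven p (Fin.cons t z) 0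
        rw [Fin.cons_zero, Fin.update_cons_zero] at h
        exact h
      simp only [hm, this]
    obtain ⟨s, ds, hsc, hs1, hsnn, hsnp, hdsc, hds⟩ := exists_profile hL n m hmc hmpos hmeven
    set R : P → ℝ → ℝ := fun p t => Real.sqrt (1 - s p t ^ 2) with hR
    have hRc : Continuous (Function.uncurry R) :=
      Real.continuous_sqrt.comp (continuous_const.sub (hsc.pow 2))
    set Y : P → (Fin (n + 1) → ℝ) → Fin (n + 1) → ℝ := fun p x => Fin.cons (s p (x 0))
      fun j => R p (x 0) * Y' (p, x 0) (Fin.tail x) j with hY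
    set D : P → (Fin (n + 1) → ℝ) → Fin (n + 1) → ℝ := fun p x =>
      Fin.cons (ds p (x 0))
        fun j => R p (x 0) * D' (p, x 0) (Fin.tail x) j with hD
    have htail : ∀ x ∈ cube L (n + 1), Fin.tail x ∈ cube L n := fun x hx i => hx i.succ
    refine ⟨Y, D, ?_, fun p x => ?_, fun p x k hk => ?_, fun p x k hk => ?_, ?_, fun p x hx k => ?_,
      fun p x hx k => ?_, fun p x hx => ?_⟩
    · have hx0 : Continuous fun q : P × (Fin (n + 1) → ℝ) => (q.1, q.2 0) := by fun_prop
      exact Continuous.finCons (hsc.comp hx0) (continuous_pi fun j => (hRc.comp hx0).mul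
        ((continuous_apply j).comp (h'.cont.comp (hx0.prodMk
          ((continuous_pi fun i => (continuous_apply i.succ).comp continuous_snd :
            Continuous fun q : P × (Fin (n + 1) → ℝ) => Fin.tail q.2))))))
    · rw [Fin.sum_univ_succ]
      simp only [hY, Fin.cons_zero, Fin.cons_succ, mul_pow, ← Finset.mul_sum]
      have := h'.norm_le (p, x 0) (Fin.tail x)
      have hR2 : R p (x 0) ^ 2 = 1 - s p (x 0) ^ 2 := Real.sq_sqrt (by linarith [hs1 p (x 0)])
      rw [hR2]
      nlinarith [hs1 p (x 0)]
    · refine Fin.cases (fun hk => ?_) (fun j hj => ?_) k hk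
      · simp only [hY, Fin.cons_zero]
        exact hsnn p _ hk
      · simp only [hY, Fin.cons_succ]
        exact mul_nonneg (Real.sqrt_nonneg _) (h'.nonneg _ _ j hj)
    · refine Fin.cases (fun hk => ?_) (fun j hj => ?_) k hk
      · simp only [hY, Fin.cons_zero]
        exact hsnp p _ hk
      · simp only [hY, Fin.cons_succ]
        exact mul_nonpos_of_nonneg_of_nonpos (Real.sqrt_nonneg _) (h'.nonpos _ _ j hj)
    · have hx0 : Continuous fun q : P × (Fin (n + 1) → ℝ) => (q.1, q.2 0) := by fun_prop
      have htc : Continuous fun q : P × (Fin (n + 1) → ℝ) => Fin.tail q.2 :=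
        continuous_pi fun i => (continuous_apply i.succ).comp continuous_snd
      refine continuousOn_pi.2 fun k => ?_
      refine Fin.cases ?_ (fun j => ?_) k
      · simp only [hD, Function.uncurry, Fin.cons_zero]
        exact hdsc.comp hx0.continuousOn fun q hq => ⟨mem_univ _, abs_lt.1 (hq.2 0)⟩
      · simp only [hD, Function.uncurry, Fin.cons_succ]
        refine (hRc.comp hx0).continuousOn.mul ?_
        exact (continuous_apply j).comp_continuousOn (h'.contD.comp (hx0.prodMk htc).continuousOn
          fun q hq => ⟨mem_univ _, htail _ hq.2⟩)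
    · refine Fin.cases ?_ (fun j => ?_) k
      · simp only [hY, hD, Fin.cons_zero, Function.update_self]
        exact (hds p (x 0) (abs_lt.1 (hx 0))).1
      · simp only [hY, hD, Fin.cons_succ]
        have e : ∀ t, Fin.tail (Function.update x j.succ t) = Function.update (Fin.tail x) j t :=
          fun t => Fin.tail_update_succ ..
        simp only [e, Function.update_of_ne (Fin.succ_ne_zero j).symm]
        exact (h'.deriv (p, x 0) _ (htail x hx) j).const_mul _
    · refine Fin.cases ?_ (fun j => ?_) k
      · simp only [hD, Fin.cons_zero]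
        exact (hds p (x 0) (abs_lt.1 (hx 0))).2.1
      · simp only [hD, Fin.cons_succ]
        exact mul_nonneg (Real.sqrt_nonneg _) (h'.D_nonneg _ _ (htail x hx) j)
    · rw [Fin.prod_univ_succ]
      simp only [hD, Fin.cons_zero, Fin.cons_succ, Finset.prod_mul_distrib, Finset.prod_const,
        Finset.card_univ, Fintype.card_fin, h'.prod_eq _ _ (htail x hx)]
      have e1 : ρ' (p, x 0) (Fin.tail x) = ρ p x := by simp [hρ']
      have e2 : boxInt L (n + 1) (ρ p) = ∫ r in -L..L, m p r := rfl
      have e3 : boxInt L n (ρ' (p, x 0)) = m p (x 0) := rfl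
      rw [e1, e2, e3, show R p (x 0) ^ n = sect n (s p (x 0)) from rfl, ← mul_assoc,
        (hds p (x 0) (abs_lt.1 (hx 0))).2.2, ballMass]
      have := (hmpos p (x 0)).ne'
      field_simp

end Vale.Agent.P219
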