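import Vale.Agent.P219.Sobolev

/-!
# P219: removing the regularisation
-/

noncomputable section

open MeasureTheory Set Filter Topology

namespace Vale.Agent.P219

variable {n : ℕ}

/-- The sharp weighted Sobolev inequality in coordinates. -/
theorem sobolev_coord (hn : 2 ≤ n) {w u : (Fin n → ℝ) → ℝ} (hw : ContDiff ℝ 1 w)
    (hw0 : ∀ x, 0 < w x) (hwe : ∀ x k, w (Function.update x k (-x k)) = w x)
    (hwm : ∀ x k, 0 ≤ x k * pd w k x) (hu : ContDiff ℝ 1 u) (huc : HasCompactSupport u)
    (hue : ∀ x k, u (Function.update x k (-x k)) = u x) :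
    n * ballMass n ^ (1 / n : ℝ) *
        (∫ x, |u x| ^ ((n : ℝ) / (n - 1)) * w x ^ n) ^ (((n : ℝ) - 1) / n) ≤
      ∫ x, w x ^ (n - 1) * Real.sqrt (∑ k, pd u k x ^ 2) := by
  have hn' : (2 : ℝ) ≤ n := by exact_mod_cast hn
  have hn0 : (n : ℝ) ≠ 0 := by positivity
  have hn1 : 0 < (n : ℝ) - 1 := by linarith
  set q : ℝ := 1 / (n : ℝ) with hq
  set p : ℝ := (n : ℝ) / (n - 1) with hp
  have hq0 : 0 ≤ q := by positivity
  have hp0 : 0 < p := div_pos (by linarith) hn1
  set h : (Fin n → ℝ) → ℝ := fun x => |u x| ^ p * w x ^ n with hh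
  have hhc : Continuous h :=
    ((hu.continuous.abs).rpow_const fun _ => Or.inr hp0.le).mul (hw.continuous.pow n)
  have hh0 : ∀ x, 0 ≤ h x := fun x =>
    mul_nonneg (Real.rpow_nonneg (abs_nonneg _) _) (pow_nonneg (hw0 x).le _)
  have hhs : HasCompactSupport h := by
    refine HasCompactSupport.of_support_subset_isCompact huc fun x hx => ?_
    by_contra h'
    refine hx ?_
    simp [hh, image_eq_zero_of_notMem_tsupport h', Real.zero_rpow hp0.ne']
  set M := ∫ x, h x with hM
  rcases (integral_nonneg hh0 : 0 ≤ M).eq_or_lt with hM0 | hM0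
  · rw [show M = 0 from hM0.symm,
      Real.zero_rpow (div_pos hn1 (by linarith)).ne', mul_zero]
    exact integral_nonneg fun x => mul_nonneg (pow_nonneg (hw0 x).le _) (Real.sqrt_nonneg _)
  obtain ⟨R, hR⟩ := huc.isCompact.isBounded.subset_closedBall (0 : Fin n → ℝ)
  set L := |R| + 1 with hLdef
  have hL : 0 < L := by positivity
  have hcube : ∀ x, x ∉ cube L n → u x = 0 := fun x hx => image_eq_zero_of_notMem_tsupport fun h' =>
    hx fun i => by
      have h1 := mem_closedBall_zero_iff.1 (hR h')
      have h2 : |x i| ≤ ‖x‖ := norm_le_pi_norm x i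
      linarith [le_abs_self R]
  have hbox : boxInt L n h = M := boxInt_eq hL n hhc hhs fun x hx => by
    simp [hh, hcube x hx, Real.zero_rpow hp0.ne']
  set c := boxInt L n fun x => w x ^ n with hc
  -- for a positive `ε`
  have hstep : ∀ ε : ℝ, 0 < ε → n * (ballMass n / M) ^ q *
      ∫ x, w x ^ (n - 1) * (Real.sqrt (u x ^ 2 + ε ^ 2) - ε) * h x ^ q ≤
      ∫ x, w x ^ (n - 1) * Real.sqrt (∑ k, pd u k x ^ 2) := by
    intro ε hε
    set s : (Fin n → ℝ) → ℝ := fun x => Real.sqrt (u x ^ 2 + ε ^ 2) - ε with hs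
    have hpos : ∀ x, u x ^ 2 + ε ^ 2 ≠ 0 := fun x => by positivity
    have hsC : ContDiff ℝ 1 s := ((((hu.pow 2).add contDiff_const)).sqrt hpos).sub contDiff_const
    have hs0 : ∀ x, 0 ≤ s x := fun x => sub_nonneg.2
      ((Real.sqrt_sq hε.le).symm.le.trans (Real.sqrt_le_sqrt (by nlinarith)))
    have hsupp : Function.support s ⊆ Function.support u := fun x hx h0 => hx (by
      simp [hs, h0, Real.sqrt_sq hε.le])
    have hsc : HasCompactSupport s :=
      HasCompactSupport.of_support_subset_isCompact huc (hsupp.trans (subset_tsupport u))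
    have hsL : tsupport s ⊆ cube L n := fun x hx => fun i => by
      have h1 := mem_closedBall_zero_iff.1 (hR (closure_mono hsupp hx))
      have h2 : |x i| ≤ ‖x‖ := norm_le_pi_norm x i
      linarith [le_abs_self R]
    have hsd : ∀ x k, pd s k x ^ 2 ≤ pd u k x ^ 2 := by
      intro x k
      have hd := ((((hasDerivAt_pd hu k x).fun_pow 2).add_const (ε ^ 2)).sqrt
        (by simpa using hpos x)).sub_const ε
      simp only [Function.update_eq_self] at hd
      rw [(hasDerivAt_pd hsC k x).unique hd]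
      have hu2 : u x ^ 2 ≤ u x ^ 2 + ε ^ 2 := by nlinarith
      rw [div_pow, mul_pow (2 : ℝ) (√_), Real.sq_sqrt (by positivity),
        div_le_iff₀ (by positivity)]
      norm_num
      nlinarith [mul_le_mul_of_nonneg_left hu2 (sq_nonneg (pd u k x))]
    have hR' : ∫ x, w x ^ (n - 1) * Real.sqrt (∑ k, pd s k x ^ 2) ≤
        ∫ x, w x ^ (n - 1) * Real.sqrt (∑ k, pd u k x ^ 2) := by
      refine integral_mono_of_nonneg (Eventually.of_forall fun x =>
        mul_nonneg (pow_nonneg (hw0 x).le _) (Real.sqrt_nonneg _)) ?_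
        (Eventually.of_forall fun x => mul_le_mul_of_nonneg_left
          (Real.sqrt_le_sqrt (Finset.sum_le_sum fun k _ => hsd x k)) (pow_nonneg (hw0 x).le _))
      refine ((hw.continuous.pow _).mul (Real.continuous_sqrt.comp
        (continuous_finsetSum _ fun k _ => (continuous_pd hu k).pow 2))).integrable_of_hasCompactSupport ?_
      refine HasCompactSupport.of_support_subset_isCompact huc fun x hx => ?_
      by_contra h'
      refine hx ?_
      simp [pd, (notMem_tsupport_iff_eventuallyEq.1 h').fderiv_eq]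
    refine le_trans ?_ hR'
    have hlim : Tendsto (fun δ : ℝ => n * (ballMass n / (M + δ * c)) ^ q *
        ∫ x, w x ^ (n - 1) * s x * h x ^ q) (𝓝[>] 0)
        (𝓝 (n * (ballMass n / M) ^ q * ∫ x, w x ^ (n - 1) * s x * h x ^ q)) := by
      have hca : ContinuousAt (fun δ : ℝ => n * (ballMass n / (M + δ * c)) ^ q *
          ∫ x, w x ^ (n - 1) * s x * h x ^ q) 0 := by
        refine (continuousAt_const.mul ?_).mul continuousAt_const
        exact ((continuousAt_const.div (continuousAt_const.add (continuousAt_id.mul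
          continuousAt_const)) (by simpa using hM0.ne')).rpow_const (Or.inr hq0))
      have h := hca.tendsto.mono_left (nhdsWithin_le_nhds (s := Ioi (0 : ℝ)))
      simpa using h
    refine le_of_tendsto hlim (eventually_nhdsWithin_of_forall fun δ hδ => ?_)
    have h := core hn hw hw0 hwe hwm hsC hs0 hsc hhc hh0
      (fun x k => by simp only [hh, hue, hwe]) hL hsL (hδ : (0 : ℝ) < δ)
    rw [boxInt_add n hhc (g := fun x => w x ^ n) (hw.continuous.pow n) δ, hbox] at h
    exact h
  -- the limit `ε → 0`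
  have hlimI : Tendsto (fun ε : ℝ => ∫ x, w x ^ (n - 1) * (Real.sqrt (u x ^ 2 + ε ^ 2) - ε) * h x ^ q)
      (𝓝[>] 0) (𝓝 M) := by
    have hgc : Continuous fun x => w x ^ (n - 1) * |u x| * h x ^ q :=
      ((hw.continuous.pow _).mul hu.continuous.abs).mul (hhc.rpow_const fun _ => Or.inr hq0)
    have hgs : HasCompactSupport fun x => w x ^ (n - 1) * |u x| * h x ^ q :=
      (huc.abs.mul_left).mul_right
    have hM' : M = ∫ x, w x ^ (n - 1) * |u x| * h x ^ q := by
      refine integral_congr_ae (Eventually.of_forall fun x => ?_)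
      show |u x| ^ p * w x ^ n = w x ^ (n - 1) * |u x| * (|u x| ^ p * w x ^ n) ^ q
      rw [Real.mul_rpow (Real.rpow_nonneg (abs_nonneg _) _) (pow_nonneg (hw0 x).le _),
        ← Real.rpow_mul (abs_nonneg _), ← Real.rpow_natCast (w x) n, ← Real.rpow_mul (hw0 x).le,
        show (n : ℝ) * q = 1 by simp only [hq]; field_simp, Real.rpow_one, Real.rpow_natCast]
      have hpw : |u x| * |u x| ^ (p * q) = |u x| ^ p := by
        rw [← Real.rpow_one_add' (abs_nonneg _) (by positivity)]
        congr 1
        simp only [hp, hq]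
        field_simp
        ring
      rw [← hpw, show w x ^ n = w x ^ (n - 1) * w x by
        rw [← pow_succ, Nat.sub_add_cancel (by omega : 1 ≤ n)]]
      ring
    rw [hM']
    refine tendsto_integral_filter_of_dominated_convergence
      (fun x => w x ^ (n - 1) * |u x| * h x ^ q) ?_ ?_
      (hgc.integrable_of_hasCompactSupport hgs) ?_
    · exact Eventually.of_forall fun ε => (((hw.continuous.pow _).mul
        ((Real.continuous_sqrt.comp ((hu.continuous.pow 2).add continuous_const)).sub
          continuous_const)).mul (hhc.rpow_const fun _ => Or.inr hq0)).aestronglyMeasurable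
    · refine eventually_nhdsWithin_of_forall fun ε hε => Eventually.of_forall fun x => ?_
      have hε' : 0 < ε := hε
      have h1 : ε ≤ Real.sqrt (u x ^ 2 + ε ^ 2) :=
        (Real.sqrt_sq hε'.le).symm.le.trans (Real.sqrt_le_sqrt (by nlinarith))
      have h2 : Real.sqrt (u x ^ 2 + ε ^ 2) ≤ |u x| + ε := Real.sqrt_le_iff.2
        ⟨by positivity, by nlinarith [sq_abs (u x), mul_nonneg (abs_nonneg (u x)) hε'.le]⟩
      have hnn : 0 ≤ w x ^ (n - 1) := pow_nonneg (hw0 x).le _
      have hhq : 0 ≤ h x ^ q := Real.rpow_nonneg (hh0 x) q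
      rw [Real.norm_eq_abs, abs_of_nonneg (mul_nonneg (mul_nonneg hnn (by linarith)) hhq)]
      exact mul_le_mul_of_nonneg_right (mul_le_mul_of_nonneg_left (by linarith) hnn) hhq
    · refine Eventually.of_forall fun x => (tendsto_const_nhds.mul ?_).mul_const _
      have hc0 : Continuous fun ε : ℝ => Real.sqrt (u x ^ 2 + ε ^ 2) - ε := by fun_prop
      have h := (hc0.tendsto 0).mono_left (nhdsWithin_le_nhds (s := Ioi (0 : ℝ)))
      simpa [Real.sqrt_sq_eq_abs] using h
  have hfin := le_of_tendsto (hlimI.const_mul ((n : ℝ) * (ballMass n / M) ^ q))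
    (eventually_nhdsWithin_of_forall fun ε hε => hstep ε hε)
  refine le_trans (le_of_eq ?_) hfin
  rw [show ((n : ℝ) - 1) / n = 1 - q by simp only [hq]; field_simp,
    Real.rpow_sub hM0, Real.rpow_one,
    Real.div_rpow (ballMass_pos n).le hM0.le]
  ring

end Vale.Agent.P219
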