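import Vale.Agent.P219.Limit

/-!
# P219: the isoperimetric inequality for symmetric domains
-/

noncomputable section

open MeasureTheory Set Filter Topology
open scoped ENNReal

namespace Vale.Agent.P219

variable {n : ℕ}

/-- Reflection of one coordinate. -/
def flipE (i : Fin n) : EuclideanSpace ℝ (Fin n) ≃ₗᵢ[ℝ] EuclideanSpace ℝ (Fin n) :=
  LinearIsometryEquiv.piLpCongrRight 2
    (fun j => if j = i then LinearIsometryEquiv.neg ℝ else LinearIsometryEquiv.refl ℝ ℝ)

lemma flipE_apply (i : Fin n) (x : EuclideanSpace ℝ (Fin n)) :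
    flipE i x = WithLp.toLp 2 (Function.update x.ofLp i (-x i)) := by
  ext j
  by_cases h : j = i
  · subst h; simp [flipE]
  · simp [flipE, h]

lemma flipE_comm (i j : Fin n) (x : EuclideanSpace ℝ (Fin n)) :
    flipE i (flipE j x) = flipE j (flipE i x) := by
  ext k
  by_cases h1 : k = i <;> by_cases h2 : k = j <;> simp [flipE, h1, h2]

lemma norm_functional (φ : EuclideanSpace ℝ (Fin n) →L[ℝ] ℝ) :
    ‖φ‖ = Real.sqrt (∑ k, φ (EuclideanSpace.single k 1) ^ 2) := by
  set v := (InnerProductSpace.toDual ℝ (EuclideanSpace ℝ (Fin n))).symm φ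
  have hv : ∀ k, φ (EuclideanSpace.single k 1) = v k := fun k => by
    rw [← InnerProductSpace.toDual_symm_apply (𝕜 := ℝ) (x := EuclideanSpace.single k 1) (y := φ),
      EuclideanSpace.inner_single_right]
    simp [v]
  rw [← (InnerProductSpace.toDual ℝ (EuclideanSpace ℝ (Fin n))).symm.norm_map φ,
    EuclideanSpace.norm_eq]
  simp [hv, v]

/-- The weighted Sobolev inequality in Euclidean space. -/
theorem sobolev_euclidean (hn : 2 ≤ n) {w u : EuclideanSpace ℝ (Fin n) → ℝ} (hw : ContDiff ℝ 1 w)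
    (hw0 : ∀ x, 0 < w x) (hwe : ∀ i x, w (flipE i x) = w x)
    (hwm : ∀ x i, 0 ≤ x i * fderiv ℝ w x (EuclideanSpace.single i 1)) (hu : ContDiff ℝ 1 u)
    (huc : HasCompactSupport u) (hue : ∀ i x, u (flipE i x) = u x) :
    n * (volume (Metric.ball (0 : EuclideanSpace ℝ (Fin n)) 1)).toReal ^ (1 / n : ℝ) *
        (∫ x, |u x| ^ ((n : ℝ) / (n - 1)) * w x ^ n) ^ (((n : ℝ) - 1) / n) ≤
      ∫ x, ‖fderiv ℝ u x‖ * w x ^ (n - 1) := by
  set ι := (PiLp.continuousLinearEquiv 2 ℝ (fun _ : Fin n => ℝ)).symm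
  have hι : ∀ z : Fin n → ℝ, ι z = WithLp.toLp 2 z := fun z => rfl
  have hflip : ∀ (z : Fin n → ℝ) k, ι (Function.update z k (-z k)) = flipE k (ι z) := fun z k => by
    rw [flipE_apply, hι, hι]
  have hpd : ∀ {f : EuclideanSpace ℝ (Fin n) → ℝ}, ContDiff ℝ 1 f → ∀ k z,
      pd (f ∘ ι) k z = fderiv ℝ f (ι z) (EuclideanSpace.single k 1) := by
    intro f hf k z
    rw [pd, ι.comp_right_fderiv, ContinuousLinearMap.comp_apply]
    rfl
  have h := sobolev_coord hn (w := w ∘ ι) (u := u ∘ ι) (hw.comp ι.contDiff) (fun z => hw0 _)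
    (fun z k => by simp only [Function.comp, hflip, hwe])
    (fun z k => by rw [hpd hw]; exact hwm (ι z) k) (hu.comp ι.contDiff)
    (huc.comp_homeomorph ι.toHomeomorph) (fun z k => by simp only [Function.comp, hflip, hue])
  rw [volume_ball_eq, ENNReal.toReal_ofReal (ballMass_pos n).le]
  have hmp := PiLp.volume_preserving_toLp (Fin n)
  have hemb : MeasurableEmbedding (WithLp.toLp 2 : (Fin n → ℝ) → EuclideanSpace ℝ (Fin n)) :=
    (MeasurableEquiv.toLp 2 (Fin n → ℝ)).measurableEmbedding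
  rw [← hmp.integral_comp hemb, ← hmp.integral_comp hemb]
  refine h.trans (le_of_eq (integral_congr_ae (Eventually.of_forall fun z => ?_)))
  simp only [hpd hu, norm_functional, Function.comp, hι]
  ring

/-- Averaging over reflections does not increase the weighted total variation. -/
lemma exists_symmetrised {w : EuclideanSpace ℝ (Fin n) → ℝ} (hw : Continuous w)
    (hw0 : ∀ x, 0 < w x) (hwe : ∀ i x, w (flipE i x) = w x)
    {Ω : Set (EuclideanSpace ℝ (Fin n))} (hΩ : MeasurableSet Ω) (hΩb : Bornology.IsBounded Ω)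
    (hΩs : ∀ i x, x ∈ Ω → flipE i x ∈ Ω) (v : EuclideanSpace ℝ (Fin n) → ℝ) (hv : ContDiff ℝ 1 v)
    (hvc : HasCompactSupport v) (S : Finset (Fin n)) :
    ∃ v' : EuclideanSpace ℝ (Fin n) → ℝ, ContDiff ℝ 1 v' ∧ HasCompactSupport v' ∧
      (∀ i ∈ S, ∀ x, v' (flipE i x) = v' x) ∧
      ∫ x, ‖fderiv ℝ v' x‖ * w x ^ (n - 1) ≤ ∫ x, ‖fderiv ℝ v x‖ * w x ^ (n - 1) ∧
      ∫ x, |v' x - Ω.indicator 1 x| ≤ ∫ x, |v x - Ω.indicator 1 x| := by
  classical
  induction S using Finset.induction with
  | empty => exact ⟨v, hv, hvc, fun i hi => absurd hi (Finset.notMem_empty i), le_rfl, le_rfl⟩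
  | @insert i S _ ih =>
    obtain ⟨f, hf, hfc, hfs, hF, hG⟩ := ih
    set R := flipE i with hR
    have hRR : ∀ x, R (R x) = x := fun x => by
      ext k; by_cases h : k = i <;> simp [hR, flipE, h]
    have hR1 : ContDiff ℝ 1 (f ∘ R) := hf.comp R.toContinuousLinearEquiv.contDiff
    have hfd : ∀ x, ‖fderiv ℝ (f ∘ R) x‖ = ‖fderiv ℝ f (R x)‖ := fun x => by
      rw [show (f ∘ R) = f ∘ R.toContinuousLinearEquiv from rfl,
        R.toContinuousLinearEquiv.comp_right_fderiv]
      exact ContinuousLinearMap.opNorm_comp_linearIsometryEquiv _ R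
    have hdc : Continuous fun x => ‖fderiv ℝ f x‖ * w x ^ (n - 1) :=
      (hf.continuous_fderiv one_ne_zero).norm.mul (hw.pow _)
    have hdi : Integrable fun x => ‖fderiv ℝ f x‖ * w x ^ (n - 1) :=
      hdc.integrable_of_hasCompactSupport (((hfc.fderiv ℝ).norm).mul_right)
    have hdiR : Integrable fun x => ‖fderiv ℝ f (R x)‖ * w x ^ (n - 1) := by
      have := (R.measurePreserving.integrable_comp_emb
        R.toHomeomorph.measurableEmbedding).2 hdi
      simpa only [Function.comp_def, hR, hwe] using this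
    have hli : Integrable fun x => |f x - Ω.indicator 1 x| :=
      ((hf.continuous.integrable_of_hasCompactSupport hfc).sub
        (IntegrableOn.integrable_indicator (integrableOn_const hΩb.measure_lt_top.ne) hΩ)).abs
    have hind : ∀ x, Ω.indicator (1 : EuclideanSpace ℝ (Fin n) → ℝ) (R x) = Ω.indicator 1 x := by
      intro x
      by_cases hx : x ∈ Ω
      · rw [indicator_of_mem hx, indicator_of_mem (hΩs i x hx)]; rfl
      · have : R x ∉ Ω := fun h => hx (hRR x ▸ hΩs i _ h)
        rw [indicator_of_notMem hx, indicator_of_notMem this]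
    have hliR : Integrable fun x => |f (R x) - Ω.indicator 1 x| := by
      have := (R.measurePreserving.integrable_comp_emb
        R.toHomeomorph.measurableEmbedding).2 hli
      simpa only [Function.comp_def, hind] using this
    have hgd : ∀ x, ‖fderiv ℝ (fun x => (1 / 2 : ℝ) * (f x + (f ∘ R) x)) x‖ ≤
        (1 / 2) * (‖fderiv ℝ f x‖ + ‖fderiv ℝ f (R x)‖) := by
      intro x
      rw [fderiv_const_mul ((hf.differentiable one_ne_zero x).fun_add (hR1.differentiable one_ne_zero x)),
        fderiv_fun_add (hf.differentiable one_ne_zero x) (hR1.differentiable one_ne_zero x), norm_smul,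
        ← hfd x]
      norm_num
      exact norm_add_le _ _
    refine ⟨fun x => (1 / 2 : ℝ) * (f x + (f ∘ R) x), contDiff_const.mul (hf.add hR1),
      (hfc.add (hfc.comp_homeomorph R.toHomeomorph)).mul_left, fun j hj x => ?_, ?_, ?_⟩
    · rcases Finset.mem_insert.1 hj with rfl | hj
      · simp only [Function.comp, hR] at hRR ⊢
        rw [hRR]; ring
      · simp only [Function.comp, hR]
        rw [hfs j hj, flipE_comm i j, hfs j hj]
    · refine le_trans ?_ hF
      refine (integral_mono_of_nonneg (Eventually.of_forall fun x =>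
        mul_nonneg (norm_nonneg _) (pow_nonneg (hw0 x).le _))
        ((hdi.add hdiR).const_mul (1 / 2)) (Eventually.of_forall fun x => ?_)).trans (le_of_eq ?_)
      · refine (mul_le_mul_of_nonneg_right (hgd x) (pow_nonneg (hw0 x).le _)).trans (le_of_eq ?_)
        simp only [Pi.add_apply]; ring
      · have e : ∫ x, ‖fderiv ℝ f (R x)‖ * w x ^ (n - 1) = ∫ x, ‖fderiv ℝ f x‖ * w x ^ (n - 1) := by
          rw [← R.measurePreserving.integral_comp R.toHomeomorph.measurableEmbedding
            (fun x => ‖fderiv ℝ f x‖ * w x ^ (n - 1))]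
          simp only [hR, hwe]
        simp only [Pi.add_apply]
        rw [integral_const_mul, integral_add hdi hdiR, e]
        ring
    · refine le_trans ?_ hG
      refine (integral_mono_of_nonneg (Eventually.of_forall fun x => abs_nonneg _)
        ((hli.add hliR).const_mul (1 / 2)) (Eventually.of_forall fun x => ?_)).trans (le_of_eq ?_)
      · simp only [Pi.add_apply, Function.comp]
        have := abs_add_le (f x - Ω.indicator 1 x) (f (R x) - Ω.indicator 1 x)
        rw [show 1 / 2 * (f x + f (R x)) - Ω.indicator 1 x =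
          1 / 2 * ((f x - Ω.indicator 1 x) + (f (R x) - Ω.indicator 1 x)) by ring, abs_mul]
        norm_num
        linarith
      · have e : ∫ x, |f (R x) - Ω.indicator 1 x| = ∫ x, |f x - Ω.indicator 1 x| := by
          rw [← R.measurePreserving.integral_comp R.toHomeomorph.measurableEmbedding
            (fun x => |f x - Ω.indicator 1 x|)]
          simp only [hind]
        simp only [Pi.add_apply]
        rw [integral_const_mul, integral_add hli hliR, e]
        ring

/-- A uniform Sobolev bound along functions tending to `1_Ω` bounds the volume of `Ω`. -/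
theorem iso_of_sobolev (hn : 2 ≤ n) {w : EuclideanSpace ℝ (Fin n) → ℝ} (hw : ContDiff ℝ 1 w)
    (hw0 : ∀ x, 0 < w x) {Ω : Set (EuclideanSpace ℝ (Fin n))} (hΩ : MeasurableSet Ω)
    (hΩb : Bornology.IsBounded Ω) {K A : ℝ} (hK0 : 0 < K)
    (g : ℕ → EuclideanSpace ℝ (Fin n) → ℝ) (hg : ∀ j, ContDiff ℝ 1 (g j))
    (hgc : ∀ j, HasCompactSupport (g j))
    (hgl' : Tendsto (fun j => ∫ x, |g j x - Ω.indicator 1 x|) atTop (𝓝 0))
    (hSob : ∀ j, K * (∫ x, |g j x| ^ ((n : ℝ) / (n - 1)) * w x ^ n) ^ (((n : ℝ) - 1) / n) ≤ A) :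
    K * (∫ x in Ω, w x ^ n) ^ (((n : ℝ) - 1) / n) ≤ A := by
  have hn' : (2 : ℝ) ≤ n := by exact_mod_cast hn
  set p : ℝ := (n : ℝ) / (n - 1) with hp
  set al : ℝ := ((n : ℝ) - 1) / n with hal
  have hp0 : 0 < p := div_pos (by linarith) (by linarith)
  have hal0 : 0 < al := div_pos (by linarith) (by linarith)
  have hM0 : ∀ j, 0 ≤ ∫ x, |g j x| ^ p * w x ^ n := fun j => integral_nonneg fun x =>
    mul_nonneg (Real.rpow_nonneg (abs_nonneg _) _) (pow_nonneg (hw0 x).le _)
  have hA0 : 0 ≤ A / K :=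
    div_nonneg (le_trans (mul_nonneg hK0.le (Real.rpow_nonneg (hM0 0) _)) (hSob 0)) hK0.le
  have hMj : ∀ j, ∫⁻ x, ENNReal.ofReal (|g j x| ^ p * w x ^ n) ≤
      ENNReal.ofReal ((A / K) ^ al⁻¹) := by
    intro j
    have hc : Continuous fun x => |g j x| ^ p * w x ^ n :=
      ((hg j).continuous.abs.rpow_const fun _ => Or.inr hp0.le).mul (hw.continuous.pow n)
    have hs : HasCompactSupport fun x => |g j x| ^ p * w x ^ n := by
      refine HasCompactSupport.of_support_subset_isCompact (hgc j) fun x hx => ?_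
      by_contra h'
      exact hx (by simp [image_eq_zero_of_notMem_tsupport h', Real.zero_rpow hp0.ne'])
    rw [← ofReal_integral_eq_lintegral_ofReal (hc.integrable_of_hasCompactSupport hs)
      (Eventually.of_forall fun x =>
        mul_nonneg (Real.rpow_nonneg (abs_nonneg _) _) (pow_nonneg (hw0 x).le _))]
    refine ENNReal.ofReal_le_ofReal ((Real.le_rpow_inv_iff_of_pos (hM0 j) hA0 hal0).2 ?_)
    rw [le_div_iff₀ hK0, mul_comm]
    exact hSob j
  -- a subsequence converging almost everywhere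
  have hconv : Tendsto (fun j => eLpNorm (g j - Ω.indicator 1) 1 volume) atTop (𝓝 0) := by
    have hgl : Tendsto (fun j => ∫ x, |g j x - Ω.indicator 1 x|) atTop (𝓝 0) :=
      hgl'
    have h := ENNReal.tendsto_ofReal hgl
    rw [ENNReal.ofReal_zero] at h
    refine h.congr fun j => ?_
    rw [eLpNorm_one_eq_lintegral_enorm, ← ofReal_integral_norm_eq_lintegral_enorm]
    · rfl
    · exact ((hg j).continuous.integrable_of_hasCompactSupport (hgc j)).sub
        (IntegrableOn.integrable_indicator (integrableOn_const hΩb.measure_lt_top.ne) hΩ)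
  obtain ⟨φ, -, hae⟩ := (tendstoInMeasure_of_tendsto_eLpNorm (one_ne_zero)
    (fun j => (hg j).continuous.aestronglyMeasurable)
    ((aestronglyMeasurable_const (b := (1 : ℝ))).indicator hΩ) hconv).exists_seq_tendsto_ae
  have hfat : ∫⁻ x, ENNReal.ofReal (Ω.indicator (fun x => w x ^ n) x) ≤
      ENNReal.ofReal ((A / K) ^ al⁻¹) := by
    refine le_trans ?_ (liminf_le_of_le (by isBoundedDefault)
      (fun b hb => (hb.exists).elim fun j hj => hj.trans (hMj (φ j))) :
        liminf (fun j => ∫⁻ x, ENNReal.ofReal (|g (φ j) x| ^ p * w x ^ n)) atTop ≤ _)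
    refine le_trans (le_of_eq (lintegral_congr_ae ?_))
      (lintegral_liminf_le fun j => ((((hg (φ j)).continuous.abs.rpow_const fun _ => Or.inr hp0.le).mul
        (hw.continuous.pow n))).measurable.ennreal_ofReal)
    filter_upwards [hae] with x hx
    refine (Tendsto.liminf_eq ?_).symm
    refine ENNReal.tendsto_ofReal ?_
    have h := ((hx.abs).rpow_const (Or.inr hp0.le) (p := p)).mul_const (w x ^ n)
    convert h using 2
    by_cases hxΩ : x ∈ Ω
    · simp [indicator_of_mem hxΩ]
    · simp [indicator_of_notMem hxΩ, Real.zero_rpow hp0.ne']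
  have hint : IntegrableOn (fun x => w x ^ n) Ω :=
    ((hw.continuous.pow n).continuousOn.integrableOn_compact hΩb.isCompact_closure).mono_set subset_closure
  rw [← ofReal_integral_eq_lintegral_ofReal (hint.integrable_indicator hΩ)
    (Eventually.of_forall fun x => indicator_nonneg (fun y _ => pow_nonneg (hw0 y).le n) x),
    ENNReal.ofReal_le_ofReal_iff (Real.rpow_nonneg hA0 _), integral_indicator hΩ] at hfat
  have h := (Real.le_rpow_inv_iff_of_pos (integral_nonneg fun x => pow_nonneg (hw0 x).le n) hA0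
    hal0).1 hfat
  rwa [le_div_iff₀ hK0, mul_comm] at h

/-- The isoperimetric inequality with the relaxed weighted perimeter. -/
theorem isoperimetric (hn : 2 ≤ n) {w : EuclideanSpace ℝ (Fin n) → ℝ} (hw : ContDiff ℝ 1 w)
    (hw0 : ∀ x, 0 < w x) (hwe : ∀ i x, w (flipE i x) = w x)
    (hwm : ∀ x i, 0 ≤ x i * fderiv ℝ w x (EuclideanSpace.single i 1))
    {Ω : Set (EuclideanSpace ℝ (Fin n))} (hΩ : MeasurableSet Ω) (hΩb : Bornology.IsBounded Ω)
    (hΩs : ∀ i x, x ∈ Ω → flipE i x ∈ Ω) (v : ℕ → EuclideanSpace ℝ (Fin n) → ℝ)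
    (hv : ∀ j, ContDiff ℝ 1 (v j) ∧ HasCompactSupport (v j))
    (hlim : Tendsto (fun j => ∫ x, |v j x - Ω.indicator 1 x|) atTop (𝓝 0)) {A : ℝ}
    (hA : ∀ j, ∫ x, ‖fderiv ℝ (v j) x‖ * w x ^ (n - 1) ≤ A) :
    n * (volume (Metric.ball (0 : EuclideanSpace ℝ (Fin n)) 1)).toReal ^ (1 / n : ℝ) *
      (∫ x in Ω, w x ^ n) ^ (((n : ℝ) - 1) / n) ≤ A := by
  choose g hg hgc hgs hgF hgL using fun j =>
    exists_symmetrised hw.continuous hw0 hwe hΩ hΩb hΩs (v j) (hv j).1 (hv j).2 Finset.univ
  refine iso_of_sobolev hn hw hw0 hΩ hΩb ?_ g hg hgc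
    (squeeze_zero (fun j => integral_nonneg fun x => abs_nonneg _) hgL hlim) fun j =>
    (sobolev_euclidean hn hw hw0 hwe hwm (hg j) (hgc j) fun i x =>
      hgs j i (Finset.mem_univ i) x).trans ((hgF j).trans (hA j))
  rw [volume_ball_eq, ENNReal.toReal_ofReal (ballMass_pos n).le]
  have := ballMass_pos n
  positivity

end Vale.Agent.P219
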