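import Mathlib

/-!
# P219: profiles of the Euclidean ball along a coordinate

For each `m` the cumulative distribution of the density `(1 - s²)^(m/2)` on `[-1, 1]` has a
continuous increasing inverse `inv m`, which is differentiable between the endpoints.
-/

noncomputable section

open MeasureTheory Set Filter Topology

namespace Vale.Agent.P219

/-- The section density `(1 - s²)^(m/2)`, continued by zero. -/
def sect (m : ℕ) (s : ℝ) : ℝ := Real.sqrt (1 - s ^ 2) ^ m

/-- The mass of the section density. -/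
def sectMass (m : ℕ) : ℝ := ∫ s in (-1 : ℝ)..1, sect m s

/-- The projection of the line onto `[a, b]`. -/
def clamp (a b t : ℝ) : ℝ := max a (min t b)

lemma continuous_sect (m : ℕ) : Continuous (sect m) := by unfold sect; fun_prop

lemma sect_nonneg (m : ℕ) (s : ℝ) : 0 ≤ sect m s := pow_nonneg (Real.sqrt_nonneg _) _

lemma sect_pos (m : ℕ) {s : ℝ} (hs : s ∈ Ioo (-1 : ℝ) 1) : 0 < sect m s :=
  pow_pos (Real.sqrt_pos.2 (by nlinarith [hs.1, hs.2])) _

lemma sectMass_pos (m : ℕ) : 0 < sectMass m :=
  intervalIntegral.intervalIntegral_pos_of_pos_on ((continuous_sect m).intervalIntegrable _ _)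
    (fun _ hs => sect_pos m hs) (by norm_num)

lemma continuous_clamp (a b : ℝ) : Continuous (clamp a b) := by unfold clamp; fun_prop

lemma clamp_mem {a b : ℝ} (hab : a ≤ b) (t : ℝ) : clamp a b t ∈ Icc a b :=
  ⟨le_max_left _ _, max_le hab (min_le_right _ _)⟩

lemma clamp_of_mem {a b t : ℝ} (ht : t ∈ Icc a b) : clamp a b t = t := by
  rw [clamp, min_eq_left ht.2, max_eq_right ht.1]

lemma clamp_mono (a b : ℝ) : Monotone (clamp a b) := fun _ _ h => by
  unfold clamp; exact max_le_max le_rfl (min_le_min h le_rfl)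

/-- The cumulative distribution, continued with slope one. -/
def cdf (m : ℕ) (s : ℝ) : ℝ :=
  (∫ r in (-1 : ℝ)..clamp (-1) 1 s, sect m r) / sectMass m + (s - clamp (-1) 1 s)

lemma continuous_cdf (m : ℕ) : Continuous (cdf m) := by
  unfold cdf
  exact (((intervalIntegral.continuous_primitive
    (fun a b => (continuous_sect m).intervalIntegrable a b) _).comp
    (continuous_clamp _ _)).div_const _).add (continuous_id.sub (continuous_clamp _ _))

lemma strictMono_cdf (m : ℕ) : StrictMono (cdf m) := by
  intro s t hst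
  have hc := clamp_mono (-1) 1 hst.le
  have hs := clamp_mem (show (-1 : ℝ) ≤ 1 by norm_num) s
  have ht := clamp_mem (show (-1 : ℝ) ≤ 1 by norm_num) t
  have hsub := intervalIntegral.integral_add_adjacent_intervals (μ := volume)
    ((continuous_sect m).intervalIntegrable (-1) (clamp (-1) 1 s))
    ((continuous_sect m).intervalIntegrable (clamp (-1) 1 s) (clamp (-1) 1 t))
  have hlin : s - clamp (-1) 1 s ≤ t - clamp (-1) 1 t := by
    unfold clamp
    rcases max_cases (-1 : ℝ) (min s 1) with h | h <;> rcases min_cases s 1 with h' | h' <;>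
      rcases max_cases (-1 : ℝ) (min t 1) with k | k <;> rcases min_cases t 1 with k' | k' <;>
      linarith [h.1, h.2, h'.1, h'.2, k.1, k.2, k'.1, k'.2]
  rcases hc.eq_or_lt with he | hl
  · simp only [cdf, he]
    linarith
  · have hpos : 0 < ∫ r in clamp (-1) 1 s..clamp (-1) 1 t, sect m r :=
      intervalIntegral.intervalIntegral_pos_of_pos_on ((continuous_sect m).intervalIntegrable _ _)
        (fun r hr => sect_pos m ⟨hs.1.trans_lt hr.1, hr.2.trans_le ht.2⟩) hl
    have : (∫ r in (-1 : ℝ)..clamp (-1) 1 s, sect m r) / sectMass m <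
        (∫ r in (-1 : ℝ)..clamp (-1) 1 t, sect m r) / sectMass m :=
      (div_lt_div_iff_of_pos_right (sectMass_pos m)).2 (by linarith)
    simp only [cdf]
    linarith

lemma cdf_one (m : ℕ) : cdf m 1 = 1 := by
  rw [cdf, clamp_of_mem (right_mem_Icc.2 (by norm_num)), sub_self, add_zero]
  exact div_self (sectMass_pos m).ne'

lemma cdf_neg_one (m : ℕ) : cdf m (-1) = 0 := by
  rw [cdf, clamp_of_mem (left_mem_Icc.2 (by norm_num)), sub_self, add_zero,
    intervalIntegral.integral_same, zero_div]

/-- An even integrand has half of its integral on `[-L, 0]`. -/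
lemma integral_half {f : ℝ → ℝ} (hf : Continuous f) (he : ∀ t, f (-t) = f t) (L : ℝ) :
    ∫ t in -L..0, f t = (∫ t in -L..L, f t) / 2 := by
  have h := intervalIntegral.integral_comp_neg (f := f) (a := 0) (b := L)
  simp only [he, neg_zero] at h
  have := intervalIntegral.integral_add_adjacent_intervals (μ := volume)
    (hf.intervalIntegrable (-L) 0) (hf.intervalIntegrable 0 L)
  linarith

lemma cdf_zero (m : ℕ) : cdf m 0 = 1 / 2 := by
  rw [cdf, clamp_of_mem ⟨by norm_num, by norm_num⟩, sub_self, add_zero,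
    integral_half (continuous_sect m) (fun t => by simp [sect]) 1]
  have := (sectMass_pos m).ne'
  rw [← sectMass]
  field_simp

lemma surjective_cdf (m : ℕ) : Function.Surjective (cdf m) := by
  refine (continuous_cdf m).surjective ?_ ?_
  · refine tendsto_atTop_mono' atTop ?_ (tendsto_atTop_add_const_right atTop (-1 : ℝ) tendsto_id)
    filter_upwards [eventually_ge_atTop (1 : ℝ)] with s hs
    have h1 : clamp (-1) 1 s = 1 := by rw [clamp, min_eq_right hs]; norm_num
    simp only [cdf, h1, id]
    rw [← sectMass, div_self (sectMass_pos m).ne']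
    linarith
  · refine tendsto_atBot_mono' atBot ?_ (tendsto_atBot_add_const_right atBot (1 : ℝ) tendsto_id)
    filter_upwards [eventually_le_atBot (-1 : ℝ)] with s hs
    have h1 : clamp (-1) 1 s = -1 := by
      rw [clamp, min_eq_left (by linarith), max_eq_left hs]
    simp only [cdf, h1, intervalIntegral.integral_same, zero_div, id]
    linarith

/-- The inverse of the cumulative distribution. -/
def inv (m : ℕ) : ℝ → ℝ :=
  ((strictMono_cdf m).orderIsoOfSurjective _ (surjective_cdf m)).symm

lemma cdf_inv (m : ℕ) (y : ℝ) : cdf m (inv m y) = y :=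
  ((strictMono_cdf m).orderIsoOfSurjective _ (surjective_cdf m)).apply_symm_apply y

lemma inv_cdf (m : ℕ) (s : ℝ) : inv m (cdf m s) = s :=
  ((strictMono_cdf m).orderIsoOfSurjective _ (surjective_cdf m)).symm_apply_apply s

lemma continuous_inv (m : ℕ) : Continuous (inv m) :=
  ((strictMono_cdf m).orderIsoOfSurjective _ (surjective_cdf m)).symm.continuous

lemma inv_mono (m : ℕ) : StrictMono (inv m) :=
  ((strictMono_cdf m).orderIsoOfSurjective _ (surjective_cdf m)).symm.strictMono

lemma inv_zero (m : ℕ) : inv m 0 = -1 := by rw [← cdf_neg_one m, inv_cdf]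
lemma inv_one (m : ℕ) : inv m 1 = 1 := by simpa only [cdf_one] using inv_cdf m 1
lemma inv_half (m : ℕ) : inv m (1 / 2) = 0 := by rw [← cdf_zero m, inv_cdf]

lemma inv_mem (m : ℕ) {y : ℝ} (hy : y ∈ Icc (0 : ℝ) 1) : inv m y ∈ Icc (-1 : ℝ) 1 :=
  ⟨inv_zero m ▸ (inv_mono m).monotone hy.1, inv_one m ▸ (inv_mono m).monotone hy.2⟩

lemma inv_mem_Ioo (m : ℕ) {y : ℝ} (hy : y ∈ Ioo (0 : ℝ) 1) : inv m y ∈ Ioo (-1 : ℝ) 1 :=
  ⟨inv_zero m ▸ inv_mono m hy.1, inv_one m ▸ inv_mono m hy.2⟩

lemma hasDerivAt_inv (m : ℕ) {y : ℝ} (hy : y ∈ Ioo (0 : ℝ) 1) :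
    HasDerivAt (inv m) (sectMass m / sect m (inv m y)) y := by
  set s := inv m y
  have hs := inv_mem_Ioo m hy
  have hd : HasDerivAt (cdf m) (sect m s / sectMass m) s := by
    have h := (((continuous_sect m).integral_hasStrictDerivAt (-1) s).hasDerivAt).div_const
      (sectMass m)
    refine h.congr_of_eventuallyEq ?_
    filter_upwards [Ioo_mem_nhds hs.1 hs.2] with r hr
    rw [cdf, clamp_of_mem (Ioo_subset_Icc_self hr), sub_self, add_zero]
  have := hd.of_local_left_inverse (continuous_inv m).continuousAt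
    (div_pos (sect_pos m hs) (sectMass_pos m)).ne' (Eventually.of_forall (cdf_inv m))
  rwa [inv_div] at this

end Vale.Agent.P219
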