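import Vale.Agent.P219.BallMass

/-!
# P219: the sharp weighted Sobolev inequality for symmetric functions

For a conformal factor `w` nondecreasing away from each coordinate hyperplane, the sharp Euclidean
Sobolev inequality holds for the metric `w² |dx|²` and functions symmetric in the coordinates.
-/

noncomputable section

open MeasureTheory Set Filter Topology

namespace Vale.Agent.P219

variable {n : ℕ}

/-- The partial derivative along a coordinate. -/
def pd (f : (Fin n → ℝ) → ℝ) (k : Fin n) (x : Fin n → ℝ) : ℝ := fderiv ℝ f x (Pi.single k 1)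

lemma continuous_pd {f : (Fin n → ℝ) → ℝ} (hf : ContDiff ℝ 1 f) (k : Fin n) :
    Continuous (pd f k) := (hf.continuous_fderiv one_ne_zero).clm_apply continuous_const

lemma hasDerivAt_pd {f : (Fin n → ℝ) → ℝ} (hf : ContDiff ℝ 1 f) (k : Fin n) (x : Fin n → ℝ) :
    HasDerivAt (fun t => f (Function.update x k t)) (pd f k x) (x k) := by
  have h := ((hf.differentiable one_ne_zero) (Function.update x k (x k))).hasFDerivAt.comp_hasDerivAt
    (x k) (hasDerivAt_update x k (x k))
  rw [Function.update_eq_self] at h
  exact h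

/-- A coordinate derivative of an integrable function integrates to zero. -/
lemma integral_pd_eq_zero {m : ℕ} (k : Fin (m + 1)) {G H : (Fin (m + 1) → ℝ) → ℝ}
    (hGc : Continuous G) (hGs : HasCompactSupport G) (hHc : Continuous H) (hHs : HasCompactSupport H)
    (hd : ∀ x, HasDerivAt (fun t => G (Function.update x k t)) (H x) (x k)) : ∫ x, H x = 0 := by
  set e := (MeasurableEquiv.piFinSuccAbove (fun _ : Fin (m + 1) => ℝ) k).symm with he
  have hmp : MeasurePreserving e :=
    (volume_preserving_piFinSuccAbove (fun _ : Fin (m + 1) => ℝ) k).symm _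
  have hec : ∀ q : ℝ × (Fin m → ℝ), e q = k.insertNth q.1 q.2 := fun q => by
    simp [he, MeasurableEquiv.piFinSuccAbove_symm_apply, Fin.insertNthEquiv]
  have hline : ∀ {F : (Fin (m + 1) → ℝ) → ℝ}, Continuous F → HasCompactSupport F →
      ∀ z : Fin m → ℝ, Integrable fun t : ℝ => F (k.insertNth t z) := by
    intro F hF hFs z
    have hc : Continuous fun t : ℝ => (k.insertNth t z : Fin (m + 1) → ℝ) := by fun_prop
    refine (hF.comp hc).integrable_of_hasCompactSupport ?_
    refine HasCompactSupport.of_support_subset_isCompact (hFs.image (continuous_apply k))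
      fun t ht => ⟨_, subset_tsupport F ht, ?_⟩
    simp
  rw [← hmp.integral_comp' (g := H), Measure.volume_eq_prod,
    integral_prod_symm (fun q => H (e q))
      ((hmp.integrable_comp_emb e.measurableEmbedding).2 (hHc.integrable_of_hasCompactSupport hHs))]
  refine integral_eq_zero_of_ae (Eventually.of_forall fun z => ?_)
  simp only [hec]
  refine integral_eq_zero_of_hasDerivAt_of_integrable (f := fun t => G (k.insertNth t z))
    (fun t => ?_) (hline hHc hHs z) (hline hGc hGs z)
  have h := hd (k.insertNth t z)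
  simpa only [Fin.update_insertNth, Fin.insertNth_apply_same] using h

/-- The inequality for a smooth function against a regularised density. -/
lemma core (hn : 2 ≤ n) {w s h : (Fin n → ℝ) → ℝ} (hw : ContDiff ℝ 1 w) (hw0 : ∀ x, 0 < w x)
    (hwe : ∀ x k, w (Function.update x k (-x k)) = w x) (hwm : ∀ x k, 0 ≤ x k * pd w k x)
    (hs : ContDiff ℝ 1 s) (hs0 : ∀ x, 0 ≤ s x) (hsc : HasCompactSupport s)
    (hh : Continuous h) (hh0 : ∀ x, 0 ≤ h x) (hhe : ∀ x k, h (Function.update x k (-x k)) = h x)
    {L : ℝ} (hL : 0 < L) (hsL : tsupport s ⊆ cube L n) {δ : ℝ} (hδ : 0 < δ) :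
    n * (ballMass n / boxInt L n (fun x => h x + δ * w x ^ n)) ^ (1 / n : ℝ) *
        ∫ x, w x ^ (n - 1) * s x * h x ^ (1 / n : ℝ) ≤
      ∫ x, w x ^ (n - 1) * Real.sqrt (∑ k, pd s k x ^ 2) := by
  obtain ⟨m, rfl⟩ : ∃ m, n = m + 1 := ⟨n - 1, by omega⟩
  set ρ : Unit → (Fin (m + 1) → ℝ) → ℝ := fun _ x => h x + δ * w x ^ (m + 1) with hρ
  have hρc : Continuous (Function.uncurry ρ) :=
    (hh.add (continuous_const.mul (hw.continuous.pow _))).comp continuous_snd
  have hρ0 : ∀ p x, 0 < ρ p x := fun _ x => by
    have := mul_pos hδ (pow_pos (hw0 x) (m + 1))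
    have := hh0 x
    simp only [hρ]; linarith
  obtain ⟨Y, D, T⟩ := exists_transport hL (m + 1) ρ hρc hρ0
    (fun _ x k => by simp only [hρ, hhe, hwe])
  classical
  set C := boxInt L (m + 1) (ρ ()) with hC
  have hC0 : 0 < C := boxInt_pos hL _ (hρc.comp (Continuous.prodMk_right ())) (hρ0 ())
  set g : (Fin (m + 1) → ℝ) → ℝ := fun x => w x ^ m * s x with hg
  have hgC : ContDiff ℝ 1 g := (hw.pow m).mul hs
  have hgsupp : tsupport g ⊆ tsupport s := tsupport_mul_subset_right
  have hgs : HasCompactSupport g := hsc.mul_left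
  have hcube : IsOpen (cube L (m + 1)) := by
    have : cube L (m + 1) = ⋂ i, {x : Fin (m + 1) → ℝ | |x i| < L} := by
      ext x; simp [cube]
    rw [this]
    exact isOpen_iInter_of_finite fun i => isOpen_lt (by fun_prop) continuous_const
  have hzero : ∀ x, x ∉ cube L (m + 1) → g =ᶠ[𝓝 x] 0 := fun x hx =>
    notMem_tsupport_iff_eventuallyEq.1 fun h => hx (hsL (hgsupp h))
  have hpd0 : ∀ x, x ∉ cube L (m + 1) → ∀ k, pd g k x = 0 := fun x hx k => by
    rw [pd, (hzero x hx).fderiv_eq]
    simp
  set H : Fin (m + 1) → (Fin (m + 1) → ℝ) → ℝ := fun k x =>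
    pd g k x * Y () x k + g x * D () x k with hH
  have hYc : ∀ k, Continuous fun x => Y () x k := fun k =>
    (continuous_apply k).comp (T.cont.comp (Continuous.prodMk_right ()))
  have hHsupp : ∀ k, Function.support (H k) ⊆ tsupport g := by
    intro k x hx
    by_contra h
    refine hx ?_
    have h' := notMem_tsupport_iff_eventuallyEq.1 h
    simp only [hH, pd, h'.fderiv_eq, h'.eq_of_nhds]
    simp
  have hHs : ∀ k, HasCompactSupport (H k) := fun k =>
    HasCompactSupport.of_support_subset_isCompact hgs (hHsupp k)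
  have hHc : ∀ k, Continuous (H k) := by
    intro k
    refine continuous_iff_continuousAt.2 fun x => ?_
    by_cases hx : x ∈ cube L (m + 1)
    · refine ((continuous_pd hgC k).mul (hYc k)).continuousAt.add
        (hgC.continuous.continuousAt.mul ?_)
      have hD : ContinuousOn (fun x => D () x k) (cube L (m + 1)) :=
        (continuous_apply k).comp_continuousOn (T.contD.comp
          (Continuous.prodMk_right ()).continuousOn fun y hy => ⟨mem_univ _, hy⟩)
      exact hD.continuousAt (hcube.mem_nhds hx)
    · have he : H k =ᶠ[𝓝 x] 0 := by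
        filter_upwards [eventually_eventually_nhds.2 (hzero x hx)] with y hy
        simp only [hH, pd, (show g =ᶠ[𝓝 y] 0 from hy).fderiv_eq,
          (show g =ᶠ[𝓝 y] 0 from hy).eq_of_nhds]
        simp
      exact continuousAt_const.congr he.symm
  have hderiv : ∀ k x, HasDerivAt (fun t => g (Function.update x k t) * Y () (Function.update x k t) k)
      (H k x) (x k) := by
    intro k x
    by_cases hx : x ∈ cube L (m + 1)
    · have h := (hasDerivAt_pd hgC k x).mul (T.deriv () x hx k)
      simp only [Function.update_eq_self] at h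
      exact h
    · have he : (fun t => g (Function.update x k t) * Y () (Function.update x k t) k) =ᶠ[𝓝 (x k)]
          fun _ => 0 := by
        have hc : Tendsto (fun t => Function.update x k t) (𝓝 (x k)) (𝓝 x) := by
          have h := (Continuous.update (f := fun _ : ℝ => x) continuous_const k continuous_id).tendsto (x k)
          rwa [id, Function.update_eq_self] at h
        filter_upwards [hc.eventually (hzero x hx)] with t ht
        simp [ht]
      refine ((hasDerivAt_const (x k) (0 : ℝ)).congr_of_eventuallyEq he).congr_deriv ?_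
      simp [hH, hpd0 x hx, (hzero x hx).eq_of_nhds]
  have hint0 : ∀ k, ∫ x, H k x = 0 := fun k =>
    integral_pd_eq_zero k (G := fun x => g x * Y () x k) (hgC.continuous.mul (hYc k))
      hgs.mul_right (hHc k) (hHs k) (hderiv k)
  -- the pointwise inequality
  set q : ℝ := 1 / ((m + 1 : ℕ) : ℝ) with hq
  have hq0 : 0 ≤ q := by positivity
  have hpt : ∀ x, ((m + 1 : ℕ) : ℝ) * (ballMass (m + 1) / C) ^ q * (w x ^ m * s x * h x ^ q) ≤
      ∑ k, H k x + w x ^ m * Real.sqrt (∑ k, pd s k x ^ 2) := by
    intro x
    have hRHS : 0 ≤ w x ^ m * Real.sqrt (∑ k, pd s k x ^ 2) :=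
      mul_nonneg (pow_nonneg (hw0 x).le _) (Real.sqrt_nonneg _)
    by_cases hx : x ∈ cube L (m + 1)
    swap
    · have h0 : w x ^ m * s x = 0 := (hzero x hx).eq_of_nhds
      simp only [h0, zero_mul, mul_zero, hH, hpd0 x hx, show g x = 0 from h0, zero_add]
      simpa using hRHS
    have hA := Real.geom_mean_le_arith_mean_weighted Finset.univ (fun _ : Fin (m + 1) => q)
      (fun k => D () x k) (fun _ _ => hq0)
      (by simp only [Finset.sum_const, Finset.card_univ, Fintype.card_fin, nsmul_eq_mul, hq]
          field_simp)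
      (fun k _ => T.D_nonneg () x hx k)
    rw [← Finset.mul_sum, Real.finsetProd_rpow _ _ (fun k _ => T.D_nonneg () x hx k),
      T.prod_eq () x hx, mul_div_right_comm] at hA
    have h1 : (ballMass (m + 1) / C) ^ q * h x ^ q ≤
        (ballMass (m + 1) / C * ρ () x) ^ q := by
      rw [← Real.mul_rpow (div_nonneg (ballMass_pos _).le hC0.le) (hh0 x)]
      refine Real.rpow_le_rpow (mul_nonneg (div_nonneg (ballMass_pos _).le hC0.le) (hh0 x))
        (mul_le_mul_of_nonneg_left ?_ (div_nonneg (ballMass_pos _).le hC0.le)) hq0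
      have := mul_pos hδ (pow_pos (hw0 x) (m + 1))
      simp only [hρ]; linarith
    have h2 : ((m + 1 : ℕ) : ℝ) * ((ballMass (m + 1) / C) ^ q * h x ^ q) ≤ ∑ k, D () x k := by
      refine (mul_le_mul_of_nonneg_left (h1.trans hA) (Nat.cast_nonneg _)).trans (le_of_eq ?_)
      rw [← mul_assoc, show ((m + 1 : ℕ) : ℝ) * q = 1 by simp only [hq]; field_simp, one_mul]
    have hgk : ∀ k, pd g k x = (m * w x ^ (m - 1) * pd w k x) * s x + w x ^ m * pd s k x := by
      intro k
      have h := (((hasDerivAt_pd hw k x).fun_pow m).mul (hasDerivAt_pd hs k x))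
      simp only [Function.update_eq_self] at h
      exact (hasDerivAt_pd hgC k x).unique h
    have hYw : ∀ k, 0 ≤ pd w k x * Y () x k := by
      intro k
      rcases lt_trichotomy (x k) 0 with hk | hk | hk
      · have := hwm x k
        exact mul_nonneg_of_nonpos_of_nonpos (by nlinarith) (T.nonpos () x k hk.le)
      · rw [le_antisymm (T.nonpos () x k hk.le) (T.nonneg () x k hk.ge), mul_zero]
      · have := hwm x k
        exact mul_nonneg (by nlinarith) (T.nonneg () x k hk.le)
    have hCS : -Real.sqrt (∑ k, pd s k x ^ 2) ≤ ∑ k, pd s k x * Y () x k := by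
      have h := Real.sum_mul_le_sqrt_mul_sqrt Finset.univ (fun k => -pd s k x) (fun k => Y () x k)
      simp only [neg_sq, neg_mul, Finset.sum_neg_distrib] at h
      have hY : Real.sqrt (∑ k, Y () x k ^ 2) ≤ 1 :=
        Real.sqrt_le_one.2 (T.norm_le () x)
      nlinarith [mul_le_mul_of_nonneg_left hY (Real.sqrt_nonneg (∑ k, pd s k x ^ 2))]
    have hsum : ∑ k, H k x = m * w x ^ (m - 1) * s x * ∑ k, pd w k x * Y () x k +
        w x ^ m * ∑ k, pd s k x * Y () x k + w x ^ m * s x * ∑ k, D () x k := by
      simp only [hH, hgk, Finset.mul_sum, ← Finset.sum_add_distrib]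
      exact Finset.sum_congr rfl fun k _ => by simp only [hg]; ring
    have t1 : 0 ≤ (m : ℝ) * w x ^ (m - 1) * s x * ∑ k, pd w k x * Y () x k :=
      mul_nonneg (mul_nonneg (mul_nonneg (Nat.cast_nonneg _) (pow_nonneg (hw0 x).le _)) (hs0 x))
        (Finset.sum_nonneg fun k _ => hYw k)
    have t2 := mul_le_mul_of_nonneg_left hCS (pow_nonneg (hw0 x).le m)
    have t3 := mul_le_mul_of_nonneg_left h2 (mul_nonneg (pow_nonneg (hw0 x).le m) (hs0 x))
    rw [hsum]
    linarith
  have hRc : Continuous fun x => w x ^ m * Real.sqrt (∑ k, pd s k x ^ 2) :=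
    (hw.continuous.pow m).mul (Real.continuous_sqrt.comp
      (continuous_finsetSum _ fun k _ => (continuous_pd hs k).pow 2))
  have hRs : HasCompactSupport fun x => w x ^ m * Real.sqrt (∑ k, pd s k x ^ 2) := by
    refine HasCompactSupport.of_support_subset_isCompact hsc fun x hx => ?_
    by_contra h
    refine hx ?_
    simp [pd, (notMem_tsupport_iff_eventuallyEq.1 h).fderiv_eq]
  have hLc : Continuous fun x => w x ^ m * s x * h x ^ q :=
    hgC.continuous.mul (hh.rpow_const fun _ => Or.inr hq0)
  have hLs : HasCompactSupport fun x => w x ^ m * s x * h x ^ q := hgs.mul_right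
  have hmain := integral_mono (μ := volume) ((hLc.integrable_of_hasCompactSupport hLs).const_mul
    (((m + 1 : ℕ) : ℝ) * (ballMass (m + 1) / C) ^ q))
    ((integrable_finsetSum _ fun k _ => (hHc k).integrable_of_hasCompactSupport (hHs k)).add
      (hRc.integrable_of_hasCompactSupport hRs)) hpt
  simp only [Pi.add_apply] at hmain
  rw [integral_const_mul, integral_add
    (integrable_finsetSum _ fun k _ => (hHc k).integrable_of_hasCompactSupport (hHs k))
    (hRc.integrable_of_hasCompactSupport hRs), integral_finsetSum _ fun k _ =>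
    (hHc k).integrable_of_hasCompactSupport (hHs k), Finset.sum_eq_zero (fun k _ => hint0 k),
    zero_add] at hmain
  simpa only [Nat.add_sub_cancel] using hmain

end Vale.Agent.P219
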